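import Vale.Agent.P238S.Near

/-!
P238S, [BLK]: the list of blocks.
-/

namespace Vale.Agent.P238S

namespace BlkAux

open NearAux

variable {X : Type}

theorem act_act (τ : X → X) (hτ : ∀ x, τ (τ x) = x) (c c' : Fin 7 → Bool) (x : Fin 7 → X) :
    act τ c (act τ c' x) = act τ (fun i => xor (c i) (c' i)) x := by
  funext i
  simp only [act]
  by_cases h1 : c i = true <;> by_cases h2 : c' i = true <;> simp [h1, h2, hτ]

theorem act_comm (τ : X → X) (c c' : Fin 7 → Bool) (x : Fin 7 → X) :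
    act τ c (act τ c' x) = act τ c' (act τ c x) := by
  funext i
  simp only [act]
  by_cases h1 : c i = true <;> by_cases h2 : c' i = true <;> simp [h1, h2]

theorem act_self (τ : X → X) (hτ : ∀ x, τ (τ x) = x) (c : Fin 7 → Bool) (x : Fin 7 → X) :
    act τ c (act τ c x) = x := by
  funext i
  simp only [act]
  by_cases h1 : c i = true <;> simp [h1, hτ]

theorem mem_rp {α : Type} {T : ℕ} {w : List α} {a : α} (h : a ∈ rp T w) : a ∈ w := by
  rw [rp, List.mem_flatten] at h
  obtain ⟨l, hl, ha⟩ := h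
  rw [List.eq_of_mem_replicate hl] at ha
  exact ha

theorem B1_length (τ : X → X) (T : ℕ) (x : Fin 7 → X) : (B1 τ T x).length = 2 * T := by
  rw [B1, rp_length]
  simp only [List.length_append, List.length_cons, List.length_nil]
  ring

theorem B2_length (τ : X → X) (T : ℕ) (x : Fin 7 → X) : (B2 τ T x).length = 4 * T ^ 2 := by
  rw [B2, rp_length]
  simp only [List.length_append, B1_length]
  ring

/-- combination of the three coordinate functions -/
def lin (a : Fin 3 → Bool) (i : Fin 7) : Bool :=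
  xor (a 0 && cd 0 i) (xor (a 1 && cd 1 i) (a 2 && cd 2 i))

theorem lin_card : ∀ a b : Fin 3 → Bool,
    3 ≤ (Finset.univ.filter fun i : Fin 7 => lin a i = lin b i).card := by
  decide +kernel

theorem mem_B1 (τ : X → X) {T : ℕ} {x y : Fin 7 → X} (h : y ∈ B1 τ T x) :
    ∃ a : Bool, y = act τ (fun i => a && cd 0 i) x := by
  have h1 := mem_rp h
  simp only [List.mem_append, List.mem_singleton] at h1
  rcases h1 with rfl | rfl
  · refine ⟨false, ?_⟩
    funext i
    simp [act]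
  · refine ⟨true, ?_⟩
    funext i
    simp [act]

theorem mem_B2 (τ : X → X) (hτ : ∀ x, τ (τ x) = x) {T : ℕ} {x y : Fin 7 → X}
    (h : y ∈ B2 τ T x) :
    ∃ a b : Bool, y = act τ (fun i => xor (a && cd 0 i) (b && cd 1 i)) x := by
  have h1 := mem_rp h
  rw [List.mem_append] at h1
  rcases h1 with h1 | h1
  · obtain ⟨a, rfl⟩ := mem_B1 τ h1
    refine ⟨a, false, ?_⟩
    funext i
    simp [act]
  · obtain ⟨a, rfl⟩ := mem_B1 τ h1
    refine ⟨a, true, ?_⟩
    rw [act_act τ hτ]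
    simp only [Bool.true_and]

theorem mem_B3 (τ : X → X) (hτ : ∀ x, τ (τ x) = x) {T : ℕ} {x y : Fin 7 → X}
    (h : y ∈ B3 τ T x) : ∃ a : Fin 3 → Bool, y = act τ (lin a) x := by
  have h1 := mem_rp h
  rw [List.mem_append] at h1
  rcases h1 with h1 | h1
  · obtain ⟨a, b, rfl⟩ := mem_B2 τ hτ h1
    refine ⟨![a, b, false], ?_⟩
    have : lin ![a, b, false] = fun i => xor (a && cd 0 i) (b && cd 1 i) := by
      funext i
      simp [lin]
    rw [this]
  · obtain ⟨a, b, rfl⟩ := mem_B2 τ hτ h1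
    refine ⟨![a, b, true], ?_⟩
    have : lin ![a, b, true] = fun i => xor (xor (a && cd 0 i) (b && cd 1 i)) (cd 2 i) := by
      funext i
      simp [lin]
    rw [this, act_act τ hτ]

theorem near_B1 (τ : X → X) (hτ : ∀ x, τ (τ x) = x) (T : ℕ) (x : Fin 7 → X) :
    Near 2 (B1 τ T x) (B1 τ T (act τ (cd 0) x)) := by
  have h := rot T [x] [act τ (cd 0) x]
  simp only [List.length_singleton, mul_one] at h
  rw [B1, B1, act_self τ hτ]
  exact h

theorem near_B2 (τ : X → X) (hτ : ∀ x, τ (τ x) = x) (T : ℕ) (x : Fin 7 → X) :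
    Near (4 * T) (B2 τ T x) (B2 τ T (act τ (cd 1) x)) := by
  have h := rot T (B1 τ T x) (B1 τ T (act τ (cd 1) x))
  rw [B1_length] at h
  rw [B2, B2, act_self τ hτ]
  exact mono h (by omega)

theorem near_B2' (τ : X → X) (hτ : ∀ x, τ (τ x) = x) (T : ℕ) (x : Fin 7 → X) :
    Near (4 * T) (B2 τ T x) (B2 τ T (act τ (cd 0) x)) := by
  rw [B2, B2, act_comm τ (cd 1) (cd 0)]
  exact mono (rep (append (near_B1 τ hτ T x) (near_B1 τ hτ T _)) T) (by omega)

end BlkAux

open BlkAux NearAux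

theorem B3_length {X : Type} (τ : X → X) (T : ℕ) (x : Fin 7 → X) :
    (B3 τ T x).length = 8 * T ^ 3 := by
  rw [B3, rp_length]
  simp only [List.length_append, B2_length]
  ring

theorem B3_far {X : Type} (τ : X → X) (hτ : ∀ x, τ (τ x) = x) (T : ℕ) (x : Fin 7 → X) :
    ∀ y ∈ B3 τ T x, ∀ z ∈ B3 τ T (act τ (fun _ => true) x),
      ∃ S : Finset (Fin 7), 3 ≤ S.card ∧ ∀ i ∈ S, z i = τ (y i) := by
  intro y hy z hz
  obtain ⟨a, rfl⟩ := mem_B3 τ hτ hy
  obtain ⟨b, rfl⟩ := mem_B3 τ hτ hz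
  refine ⟨_, lin_card a b, fun i hi => ?_⟩
  have h := (Finset.mem_filter.1 hi).2
  simp only [act, h, if_true]
  cases lin b i <;> simp

theorem B3_near {X : Type} (τ : X → X) (hτ : ∀ x, τ (τ x) = x) (T : ℕ) (k : Fin 3)
    (x : Fin 7 → X) : Near (8 * T ^ 2) (B3 τ T x) (B3 τ T (act τ (cd k) x)) := by
  have h01 : k = 0 ∨ k = 1 ∨ k = 2 := by
    fin_cases k <;> simp
  rcases h01 with rfl | rfl | rfl
  · rw [B3, B3, act_comm τ (cd 2) (cd 0)]
    refine mono (rep (append (near_B2' τ hτ T x) (near_B2' τ hτ T _)) T) (le_of_eq ?_)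
    ring
  · rw [B3, B3, act_comm τ (cd 2) (cd 1)]
    refine mono (rep (append (near_B2 τ hτ T x) (near_B2 τ hτ T _)) T) (le_of_eq ?_)
    ring
  · have h := rot T (B2 τ T x) (B2 τ T (act τ (cd 2) x))
    rw [B2_length] at h
    rw [B3, B3, act_self τ hτ]
    exact mono h (by omega)

theorem B3_map {X : Type} (τ : X → X) (T : ℕ) (n : (Fin 7 → X) → (Fin 7 → X))
    (hn : ∀ k x, n (act τ (cd k) x) = act τ (cd k) (n x)) (x : Fin 7 → X) :
    B3 τ T (n x) = (B3 τ T x).map n := by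
  have hrp : ∀ (w : List (Fin 7 → X)), (rp T w).map n = rp T (w.map n) := by
    intro w
    simp [rp, List.map_flatten]
  have h1 : ∀ x, B1 τ T (n x) = (B1 τ T x).map n := by
    intro x
    rw [B1, B1, hrp, ← hn]
    rfl
  have h2 : ∀ x, B2 τ T (n x) = (B2 τ T x).map n := by
    intro x
    rw [B2, B2, hrp, ← hn, h1, h1, List.map_append]
  rw [B3, B3, hrp, ← hn, h2, h2, List.map_append]

end Vale.Agent.P238S
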