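import Vale.Agent.P238S.Enc
import Vale.Agent.P238.Final

/-!
P238S: from the induction statement to the distortion.
-/

namespace Vale.Agent.P238S

open Finset P238

theorem c1_of_good {K ℓ E : ℕ} {ν : ℝ} (h : Good K ℓ E ν) (hν : 0 < ν) (n : ℕ)
    (hn : (2 * K + 5) * ℓ ≤ n) :
    (E : ℝ) / (2 * (2 * K + 5) * ν) ≤ P238.c1 (Fin n → Bool) (P238.edDist n) := by
  obtain ⟨X, _, _, τ, φ, ι, _, w, nm, c, -, hlen, hlt, hfar, hw, -, hnear, hcut, hsum⟩ := h
  have hle : ∀ x, ∀ a ∈ φ x, a ≤ K := fun x a ha => (hlt x a ha).le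
  set m := n - (2 * K + 5) * ℓ with hm
  set W : X → List Bool := fun x => encw K (φ x) ++ List.replicate m false with hW
  have hWl : ∀ x, (W x).length = n := by
    intro x
    rw [hW]
    simp only [List.length_append, List.length_replicate]
    rw [encw_length K (φ x) (hle x), hlen x]
    omega
  set wd : X → Fin n → Bool := fun x i => (W x)[i.1]'(by rw [hWl]; exact i.2) with hwd
  have hword : ∀ x, word (wd x) = W x := by
    intro x
    unfold word
    apply List.ext_getElem
    · rw [List.length_ofFn, hWl]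
    · intro i h1 h2
      rw [List.getElem_ofFn]
  obtain ⟨g, hg⟩ := Fin238.exists_inj (Fin n → Bool)
  have : Nonempty {f : (Fin n → Bool) → ell1 // Function.Injective f} := ⟨⟨g, hg⟩⟩
  unfold c1
  refine le_ciInf (fun f => ?_)
  obtain ⟨f, hf⟩ := f
  unfold distortion
  have hρ0 : ∀ x y : Fin n → Bool, 0 ≤ edDist n x y := fun x y => Nat.cast_nonneg _
  have hρ : ∀ x y : Fin n → Bool, x ≠ y → 0 < edDist n x y := by
    intro x y hxy
    unfold edDist
    have : ED (word x) (word y) ≠ 0 := by
      rw [Ne, ED_eq_zero]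
      intro h
      exact hxy (List.ofFn_injective h)
    exact_mod_cast Nat.pos_of_ne_zero this
  have hself : ∀ x : Fin n → Bool, edDist n x x = 0 := by
    intro x
    unfold edDist
    have : ED (word x) (word x) = 0 := (ED_eq_zero _ _).mpr rfl
    rw [this]; norm_num
  set A := ⨆ p : {p : (Fin n → Bool) × (Fin n → Bool) // p.1 ≠ p.2},
    ‖f p.1.1 - f p.1.2‖ / edDist n p.1.1 p.1.2 with hA
  set B := ⨆ p : {p : (Fin n → Bool) × (Fin n → Bool) // p.1 ≠ p.2},
    edDist n p.1.1 p.1.2 / ‖f p.1.1 - f p.1.2‖ with hB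
  have hA0 : 0 ≤ A := Real.iSup_nonneg (fun p => div_nonneg (norm_nonneg _) (hρ0 _ _))
  have hB0 : 0 ≤ B := Real.iSup_nonneg (fun p => div_nonneg (hρ0 _ _) (norm_nonneg _))
  have hlip : ∀ x y, ‖f (wd x) - f (wd y)‖ ≤ A * edDist n (wd x) (wd y) := by
    intro x y
    by_cases h : wd x = wd y
    · simp only [h, sub_self, norm_zero, hself, mul_zero, le_refl]
    · exact Fin238.lip_bound (edDist n) f hρ _ _ h
  have hcolip : ∀ x y, edDist n (wd x) (wd y) ≤ B * ‖f (wd x) - f (wd y)‖ := by
    intro x y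
    by_cases h : wd x = wd y
    · simp only [h, sub_self, norm_zero, hself, mul_zero, le_refl]
    · exact Fin238.colip_bound (edDist n) f hf _ _ h
  have hED : ∀ x y, edDist n (wd x) (wd y) = (ED (W x) (W y) : ℝ) := by
    intro x y
    unfold edDist
    rw [hword, hword]
  -- the inequality for the map
  have hmain := cut_to_l1 (X := X) ({()} : Finset Unit) (fun _ => 1) (fun _ => τ)
    (Finset.univ : Finset ι) w nm (fun g hg => by simpa using hcut g hg) (fun x => f (wd x))
  simp only [Finset.sum_singleton, one_mul] at hmain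
  -- lower side
  have hlow : (Fintype.card X : ℝ) * E ≤ 2 * (B * ∑ x, ‖f (wd x) - f (wd (τ x))‖) := by
    rw [Finset.mul_sum, Finset.mul_sum]
    have h1 : ∀ x : X, (E : ℝ) ≤ 2 * (B * ‖f (wd x) - f (wd (τ x))‖) := by
      intro x
      have h2 := enc_far K m E (φ x) (φ (τ x)) (hle x) (hle (τ x)) (by rw [hlen, hlen]) (hfar x)
      have h3 : (E : ℝ) ≤ 2 * (ED (W x) (W (τ x)) : ℝ) := by exact_mod_cast h2
      have h4 := hcolip x (τ x)
      rw [hED] at h4
      linarith
    calc (Fintype.card X : ℝ) * E = ∑ _x : X, (E : ℝ) := by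
          rw [Finset.sum_const, nsmul_eq_mul, Finset.card_univ]
      _ ≤ _ := Finset.sum_le_sum fun x _ => h1 x
  -- upper side
  have hup : ∑ j, w j * ∑ x, ‖f (wd x) - f (wd (nm j x))‖ ≤
      A * ((2 * K + 5) * (Fintype.card X * ν)) := by
    have h1 : ∀ j, ∑ x, ‖f (wd x) - f (wd (nm j x))‖ ≤
        A * ((2 * K + 5) * (Fintype.card X * c j)) := by
      intro j
      have h2 : ∀ x : X, ‖f (wd x) - f (wd (nm j x))‖ ≤ A * ((2 * K + 5) * c j) := by
        intro x
        refine (hlip x (nm j x)).trans (mul_le_mul_of_nonneg_left ?_ hA0)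
        rw [hED]
        have h3 := enc_near K (c j) (φ x) (φ (nm j x)) (hle x) (hle _) (hnear j x)
          (List.replicate m false)
        exact_mod_cast h3
      calc ∑ x, ‖f (wd x) - f (wd (nm j x))‖ ≤ ∑ _x : X, A * ((2 * K + 5) * c j) :=
            Finset.sum_le_sum fun x _ => h2 x
        _ = _ := by
            rw [Finset.sum_const, nsmul_eq_mul, Finset.card_univ]; ring
    calc ∑ j, w j * ∑ x, ‖f (wd x) - f (wd (nm j x))‖
        ≤ ∑ j, w j * (A * ((2 * K + 5) * (Fintype.card X * c j))) :=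
          Finset.sum_le_sum fun j _ => mul_le_mul_of_nonneg_left (h1 j) (hw j)
      _ = A * ((2 * K + 5) * (Fintype.card X * ∑ j, w j * c j)) := by
          simp only [Finset.mul_sum]
          refine Finset.sum_congr rfl fun j _ => ?_
          ring
      _ ≤ _ := by gcongr
  have hcard : (0 : ℝ) < Fintype.card X := by exact_mod_cast Fintype.card_pos
  have hfin : (Fintype.card X : ℝ) * E ≤
      Fintype.card X * (2 * (2 * K + 5) * ν * (A * B)) := by
    calc (Fintype.card X : ℝ) * E ≤ 2 * (B * ∑ x, ‖f (wd x) - f (wd (τ x))‖) := hlow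
      _ ≤ 2 * (B * (A * ((2 * K + 5) * (Fintype.card X * ν)))) := by
          gcongr
          exact hmain.trans hup
      _ = _ := by ring
  have hfin' := le_of_mul_le_mul_left hfin hcard
  rw [div_le_iff₀ (by positivity)]
  linarith

end Vale.Agent.P238S
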