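import Vale.Agent.P238S.Defs

/-!
P238S: a cut inequality for `X`, used in one coordinate of `X^7`.
-/

namespace Vale.Agent.P238S

open Finset

/-- exchanging the coordinate `i` with an extra coordinate -/
def coordEquiv {X : Type} (i : Fin 7) : ((Fin 7 → X) × X) ≃ ((Fin 7 → X) × X) where
  toFun p := (Function.update p.1 i p.2, p.1 i)
  invFun p := (Function.update p.1 i p.2, p.1 i)
  left_inv p := by simp
  right_inv p := by simp

theorem coord_sum_update {X : Type} [Fintype X] (i : Fin 7) (G : (Fin 7 → X) → ℝ) :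
    ∑ x : Fin 7 → X, ∑ y : X, G (Function.update x i y) =
      (Fintype.card X : ℝ) * ∑ x : Fin 7 → X, G x := by
  have h1 : ∑ p : (Fin 7 → X) × X, G (Function.update p.1 i p.2) =
      ∑ p : (Fin 7 → X) × X, G p.1 :=
    Fintype.sum_equiv (coordEquiv i) _ _ fun p => rfl
  rw [Fintype.sum_prod_type, Fintype.sum_prod_type] at h1
  rw [h1]
  simp [mul_sum]

theorem coord {X ι : Type} [Fintype X] [Fintype ι] (τ : X → X) (w : ι → ℝ) (n : ι → X → X)
    (h : ∀ g : X → ℝ, (∀ x, g x = 0 ∨ g x = 1) →
      ∑ x, |g x - g (τ x)| ≤ ∑ j, w j * ∑ x, |g x - g (n j x)|)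
    (i : Fin 7) (g : (Fin 7 → X) → ℝ) (hg : ∀ x, g x = 0 ∨ g x = 1) :
    ∑ x, |g x - g (act τ (fun j => decide (j = i)) x)|
      ≤ ∑ j, w j * ∑ x, |g x - g (Function.update x i (n j (x i)))| := by
  classical
  rcases isEmpty_or_nonempty X with hX | hX
  · have : IsEmpty (Fin 7 → X) := ⟨fun x => hX.false (x 0)⟩
    simp
  have hc : (0 : ℝ) < Fintype.card X := by
    exact_mod_cast Fintype.card_pos
  have hact : ∀ (x : Fin 7 → X) (y : X),
      act τ (fun j => decide (j = i)) (Function.update x i y) = Function.update x i (τ y) := by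
    intro x y
    funext j
    unfold act
    by_cases hj : j = i
    · subst hj
      simp
    · simp [hj]
  have h1 := coord_sum_update i (fun x => |g x - g (act τ (fun j => decide (j = i)) x)|)
  have h2 : ∀ j, ∑ x : Fin 7 → X, ∑ y : X, |g (Function.update x i y) -
      g (Function.update x i (n j y))| =
      (Fintype.card X : ℝ) * ∑ x, |g x - g (Function.update x i (n j (x i)))| := by
    intro j
    rw [← coord_sum_update i (fun x => |g x - g (Function.update x i (n j (x i)))|)]
    simp
  have h3 : ∑ x : Fin 7 → X, ∑ y : X, |g (Function.update x i y) -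
      g (act τ (fun j => decide (j = i)) (Function.update x i y))| ≤
      ∑ x : Fin 7 → X, ∑ j, w j * ∑ y : X, |g (Function.update x i y) -
        g (Function.update x i (n j y))| := by
    refine sum_le_sum fun x _ => ?_
    simp only [hact]
    exact h (fun y => g (Function.update x i y)) fun y => hg _
  rw [h1, sum_comm] at h3
  have h4 : ∑ j, ∑ x : Fin 7 → X, w j * ∑ y : X, |g (Function.update x i y) -
      g (Function.update x i (n j y))| =
      (Fintype.card X : ℝ) * ∑ j, w j * ∑ x, |g x - g (Function.update x i (n j (x i)))| := by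
    rw [mul_sum]
    refine sum_congr rfl fun j _ => ?_
    rw [← mul_sum, h2 j]
    ring
  rw [h4] at h3
  exact le_of_mul_le_mul_left h3 hc

end Vale.Agent.P238S
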