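import Vale.Agent.P238S.Defs

/-!
P238S, piece [CORE]: a block matched with a factor of a concatenation of blocks.
-/

namespace Vale.Agent.P238S

open Finset

namespace Co

/-- recursive form of `U` -/
def Ug (M : ℕ) : ℕ → List (List ℕ) → List ℕ
  | K, [] => List.replicate M K
  | K, p :: l => List.replicate M K ++ (p ++ Ug M (K + 1) l)

lemma U_eq (K M : ℕ) (P : Fin 7 → List ℕ) :
    U K M P = Ug M K [P 0, P 1, P 2, P 3, P 4, P 5, P 6] := by
  have h : List.finRange 7 = [0, 1, 2, 3, 4, 5, 6] := by decide
  unfold U
  rw [h]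
  simp [Ug, List.flatMap_cons, add_assoc]

lemma mem_Ug {M a K0 : ℕ} : ∀ (l : List (List ℕ)) (K : ℕ), (∀ p ∈ l, ∀ b ∈ p, b < K0) →
    a ∈ Ug M K l → a < K0 ∨ (K ≤ a ∧ a ≤ K + l.length)
  | [], K, _, h => by
    have := List.eq_of_mem_replicate h
    right; simp [this]
  | p :: l, K, hl, h => by
    simp only [Ug, List.mem_append] at h
    rcases h with h | h | h
    · have := List.eq_of_mem_replicate h
      right; simp [this]
    · left; exact hl p (by simp) a h
    · rcases mem_Ug l (K + 1) (fun q hq => hl q (by simp [hq])) h with h1 | h1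
      · left; exact h1
      · right
        simp only [List.length_cons]
        omega

/-- the first letter of a sublist containing the first marker -/
lemma head_Ug {M K0 K : ℕ} (hK : K0 ≤ K) (l : List (List ℕ)) (hl : ∀ p ∈ l, ∀ b ∈ p, b < K0)
    (z : List ℕ) (hz : z.Sublist (Ug M K l)) (hm : K ∈ z) : ∃ z', z = K :: z' := by
  cases l with
  | nil =>
    have h1 : ∀ a ∈ z, a = K := fun a ha => List.eq_of_mem_replicate (hz.subset ha)
    cases z with
    | nil => simp at hm
    | cons a z' => exact ⟨z', by rw [h1 a (by simp)]⟩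
  | cons p l =>
    simp only [Ug] at hz
    obtain ⟨z1, z2, rfl, h1, h2⟩ := List.sublist_append_iff.1 hz
    cases z1 with
    | nil =>
      exfalso
      simp only [List.nil_append] at hm
      have h3 := h2.subset hm
      rw [List.mem_append] at h3
      rcases h3 with h3 | h3
      · have := hl p (by simp) K h3; omega
      · rcases mem_Ug l (K + 1) (fun q hq => hl q (by simp [hq])) h3 with h4 | h4 <;> omega
    | cons a z1 =>
      have : a = K := List.eq_of_mem_replicate (h1.subset (by simp))
      exact ⟨z1 ++ z2, by rw [this]; rfl⟩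

/-- unique splitting -/
lemma split_Ug {M K0 : ℕ} : ∀ (ps qs : List (List ℕ)) (K : ℕ), K0 ≤ K → ps.length = qs.length →
    (∀ p ∈ ps, ∀ b ∈ p, b < K0) → (∀ p ∈ qs, ∀ b ∈ p, b < K0) →
    ∀ z : List ℕ, z.Sublist (Ug M K ps) → z.Sublist (Ug M K qs) →
      (∀ i ≤ ps.length, K + i ∈ z) →
      ∃ rs : List (List ℕ), List.Forall₂ List.Sublist rs ps ∧ List.Forall₂ List.Sublist rs qs ∧
        (z.filter (fun a => decide (a < K0))).length = (rs.map List.length).sum
  | [], [], K, hK, _, _, _, z, hz, _, _ => by
    refine ⟨[], List.Forall₂.nil, List.Forall₂.nil, ?_⟩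
    have h1 : ∀ a ∈ z, a = K := fun a ha => List.eq_of_mem_replicate (hz.subset ha)
    have : z.filter (fun a => decide (a < K0)) = [] := by
      rw [List.filter_eq_nil_iff]
      intro a ha
      rw [h1 a ha]
      simp; omega
    rw [this]; rfl
  | [], q :: qs, K, _, h, _, _, _, _, _, _ => by simp at h
  | p :: ps, [], K, _, h, _, _, _, _, _, _ => by simp at h
  | p :: ps, q :: qs, K, hK, hlen, hp, hq, z, hz, hz', hm => by
    simp only [Ug] at hz hz'
    obtain ⟨z1, w, e1, h1, h2⟩ := List.sublist_append_iff.1 hz
    obtain ⟨z2, z3, e2, h3, h4⟩ := List.sublist_append_iff.1 h2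
    obtain ⟨y1, v, f1, g1, g2⟩ := List.sublist_append_iff.1 hz'
    obtain ⟨y2, y3, f2, g3, g4⟩ := List.sublist_append_iff.1 g2
    have hz1 : ∀ a ∈ z1, a = K := fun a ha => List.eq_of_mem_replicate (h1.subset ha)
    have hy1 : ∀ a ∈ y1, a = K := fun a ha => List.eq_of_mem_replicate (g1.subset ha)
    have hz2 : ∀ a ∈ z2, a < K0 := fun a ha => hp p (by simp) a (h3.subset ha)
    have hy2 : ∀ a ∈ y2, a < K0 := fun a ha => hq q (by simp) a (g3.subset ha)
    have hm1 : K + 1 ∈ z := hm 1 (by simp)
    have hz3m : K + 1 ∈ z3 := by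
      rw [e1, e2, List.mem_append, List.mem_append] at hm1
      rcases hm1 with h | h | h
      · have := hz1 _ h; omega
      · have := hz2 _ h; omega
      · exact h
    have hy3m : K + 1 ∈ y3 := by
      rw [f1, f2, List.mem_append, List.mem_append] at hm1
      rcases hm1 with h | h | h
      · have := hy1 _ h; omega
      · have := hy2 _ h; omega
      · exact h
    obtain ⟨z4, hz4⟩ := head_Ug (by omega : K0 ≤ K + 1) ps (fun a ha => hp a (by simp [ha])) z3 h4 hz3m
    obtain ⟨y4, hy4⟩ := head_Ug (by omega : K0 ≤ K + 1) qs (fun a ha => hq a (by simp [ha])) y3 g4 hy3m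
    -- `dropWhile` determines the last part
    have hd1 : z.dropWhile (fun a => decide (a ≠ K + 1)) = z3 := by
      rw [e1, e2, ← List.append_assoc, List.dropWhile_append_of_pos, hz4, List.dropWhile_cons_of_neg]
      · simp
      · intro a ha
        rw [List.mem_append] at ha
        rcases ha with h | h
        · have := hz1 _ h; simp; omega
        · have := hz2 _ h; simp; omega
    have hd2 : z.dropWhile (fun a => decide (a ≠ K + 1)) = y3 := by
      rw [f1, f2, ← List.append_assoc, List.dropWhile_append_of_pos, hy4, List.dropWhile_cons_of_neg]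
      · simp
      · intro a ha
        rw [List.mem_append] at ha
        rcases ha with h | h
        · have := hy1 _ h; simp; omega
        · have := hy2 _ h; simp; omega
    have h33 : z3 = y3 := hd1.symm.trans hd2
    have hpre : z1 ++ z2 = y1 ++ y2 := by
      have e : (z1 ++ z2) ++ z3 = (y1 ++ y2) ++ z3 := by
        have e' : (y1 ++ y2) ++ z3 = z := by rw [f1, f2, h33, List.append_assoc]
        rw [e', e1, e2, List.append_assoc]
      exact List.append_cancel_right e
    have fz1 : z1.filter (fun a => decide (a < K0)) = [] := by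
      rw [List.filter_eq_nil_iff]; intro a ha; rw [hz1 a ha]; simp; omega
    have fy1 : y1.filter (fun a => decide (a < K0)) = [] := by
      rw [List.filter_eq_nil_iff]; intro a ha; rw [hy1 a ha]; simp; omega
    have fz2 : z2.filter (fun a => decide (a < K0)) = z2 := by
      rw [List.filter_eq_self]; intro a ha; simpa using hz2 a ha
    have fy2 : y2.filter (fun a => decide (a < K0)) = y2 := by
      rw [List.filter_eq_self]; intro a ha; simpa using hy2 a ha
    have h22 : z2 = y2 := by
      have := congrArg (List.filter (fun a => decide (a < K0))) hpre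
      rwa [List.filter_append, List.filter_append, fz1, fy1, fz2, fy2, List.nil_append,
        List.nil_append] at this
    have hmm : ∀ i ≤ ps.length, K + 1 + i ∈ z3 := by
      intro i hi
      have h5 := hm (i + 1) (by simp; omega)
      rw [e1, e2, List.mem_append, List.mem_append] at h5
      rcases h5 with h | h | h
      · have := hz1 _ h; omega
      · have := hz2 _ h; omega
      · have e : K + 1 + i = K + (i + 1) := by omega
        rw [e]; exact h
    obtain ⟨rs, hr1, hr2, hr3⟩ := split_Ug ps qs (K + 1) (by omega) (by simpa using hlen)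
      (fun a ha => hp a (by simp [ha])) (fun a ha => hq a (by simp [ha])) z3 h4
      (by rw [h33]; exact g4) hmm
    refine ⟨z2 :: rs, List.Forall₂.cons h3 hr1, List.Forall₂.cons (by rw [h22]; exact g3) hr2, ?_⟩
    rw [e1, e2, List.filter_append, List.filter_append, fz1, fz2, List.nil_append,
      List.length_append, hr3]
    rfl

lemma count_Ug {M K0 : ℕ} : ∀ (l : List (List ℕ)) (K : ℕ), K0 ≤ K →
    (∀ p ∈ l, ∀ b ∈ p, b < K0) → ∀ i ≤ l.length, (Ug M K l).count (K + i) = M
  | [], K, _, _, i, hi => by
    simp only [List.length_nil, Nat.le_zero] at hi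
    subst hi
    simp [Ug]
  | p :: l, K, hK, hl, i, hi => by
    simp only [Ug, List.count_append]
    have hp0 : p.count (K + i) = 0 := by
      rw [List.count_eq_zero]
      intro h
      have := hl p (by simp) _ h
      omega
    rw [hp0, zero_add]
    cases i with
    | zero =>
      have : (Ug M (K + 1) l).count (K + 0) = 0 := by
        rw [List.count_eq_zero]
        intro h
        rcases mem_Ug l (K + 1) (fun q hq => hl q (by simp [hq])) h with h1 | h1 <;> omega
      rw [this]
      simp
    | succ i =>
      have h1 := count_Ug (M := M) l (K + 1) (by omega) (fun q hq => hl q (by simp [hq])) i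
        (by simpa using hi)
      have e : K + (i + 1) = K + 1 + i := by omega
      rw [e, h1, List.count_eq_zero.2, zero_add]
      intro h
      have := List.eq_of_mem_replicate h
      omega

lemma lo_Ug {M K0 : ℕ} : ∀ (l : List (List ℕ)) (K : ℕ), K0 ≤ K →
    (∀ p ∈ l, ∀ b ∈ p, b < K0) →
      (Ug M K l).countP (fun a => decide (a < K0)) = (l.map List.length).sum
  | [], K, hK, _ => by
    simp only [Ug, List.map_nil, List.sum_nil]
    rw [List.countP_eq_zero]
    intro a ha
    rw [List.eq_of_mem_replicate ha]
    simp; omega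
  | p :: l, K, hK, hl => by
    simp only [Ug, List.countP_append, List.map_cons, List.sum_cons]
    rw [lo_Ug l (K + 1) (by omega) (fun q hq => hl q (by simp [hq]))]
    have h1 : (List.replicate M K).countP (fun a => decide (a < K0)) = 0 := by
      rw [List.countP_eq_zero]
      intro a ha
      rw [List.eq_of_mem_replicate ha]
      simp; omega
    have h2 : p.countP (fun a => decide (a < K0)) = p.length := by
      rw [List.countP_eq_length]
      intro a ha
      simpa using hl p (by simp) a ha
    rw [h1, h2, zero_add]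

variable {K M c : ℕ}

lemma lowQ {Q : Fin 7 → List ℕ} (hQ : ∀ i, ∀ a ∈ Q i, a < K) :
    ∀ p ∈ [Q 0, Q 1, Q 2, Q 3, Q 4, Q 5, Q 6], ∀ b ∈ p, b < K := by
  intro p hp b hb
  simp only [List.mem_cons, List.not_mem_nil, or_false] at hp
  rcases hp with rfl | rfl | rfl | rfl | rfl | rfl | rfl <;> exact hQ _ b hb

lemma count_U {Q : Fin 7 → List ℕ} (hQ : ∀ i, ∀ a ∈ Q i, a < K) (i : ℕ) (hi : i ≤ 7) :
    (U K M Q).count (K + i) = M := by
  rw [U_eq]
  exact count_Ug _ K le_rfl (lowQ hQ) i (by simpa using hi)

lemma lo_U {Q : Fin 7 → List ℕ} (hQ : ∀ i, ∀ a ∈ Q i, a < K) :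
    (U K M Q).countP (fun a => decide (a < K)) = ∑ i, (Q i).length := by
  rw [U_eq, lo_Ug _ K le_rfl (lowQ hQ)]
  simp [Fin.sum_univ_succ, add_assoc]

/-- letters before a first marker -/
lemma pre_marker {Q : Fin 7 → List ℕ} (hQ : ∀ i, ∀ a ∈ Q i, a < K) {A W : List ℕ}
    (h : A ++ W = U K M Q) (hW : K ∈ W) : ∀ a ∈ A, a = K := by
  rw [U_eq] at h
  rw [Ug] at h
  have hnot : K ∉ Q 0 ++ Ug M (K + 1) [Q 1, Q 2, Q 3, Q 4, Q 5, Q 6] := by
    intro hK
    rw [List.mem_append] at hK
    rcases hK with hK | hK
    · exact lt_irrefl _ (hQ 0 K hK)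
    · rcases mem_Ug (K0 := K) _ (K + 1) (fun q hq => lowQ hQ q (List.mem_cons_of_mem _ hq)) hK
        with h1 | h1 <;> omega
  rw [List.append_eq_append_iff] at h
  rcases h with ⟨a', h1, h2⟩ | ⟨c', h1, h2⟩
  · intro a ha
    have : a ∈ List.replicate M K := by rw [h1]; simp [ha]
    exact List.eq_of_mem_replicate this
  · exfalso
    apply hnot
    rw [h2]
    simp [hW]

lemma U_pre (Q : Fin 7 → List ℕ) : ∃ post, U K M Q
    = (List.replicate M K ++ (Q 0 ++ List.replicate M (K + 1))) ++ post := by
  refine ⟨Q 1 ++ Ug M (K + 1 + 1) [Q 2, Q 3, Q 4, Q 5, Q 6], ?_⟩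
  rw [U_eq, Ug, Ug]
  simp only [List.append_assoc]

/-- letters after a last marker -/
lemma post_marker {Q : Fin 7 → List ℕ} (hQ : ∀ i, ∀ a ∈ Q i, a < K) {W B : List ℕ}
    (h : W ++ B = U K M Q) (hW : K + 7 ∈ W) : ∀ a ∈ B, a = K + 7 := by
  have hnot : K + 7 ∉ (List.finRange 7).flatMap
      (fun i => List.replicate M (K + i.1) ++ Q i) := by
    intro hK
    rw [List.mem_flatMap] at hK
    obtain ⟨i, _, hi⟩ := hK
    rw [List.mem_append] at hi
    rcases hi with hi | hi
    · have := List.eq_of_mem_replicate hi
      omega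
    · have := hQ i _ hi
      omega
  unfold U at h
  rw [List.append_eq_append_iff] at h
  rcases h with ⟨a', h1, h2⟩ | ⟨c', h1, h2⟩
  · exfalso
    apply hnot
    rw [h1]
    simp [hW]
  · intro a ha
    have : a ∈ List.replicate M (K + 7) := by rw [h2]; simp [ha]
    exact List.eq_of_mem_replicate this

/-- the last letter of a sublist containing the last marker -/
lemma last_U {P : Fin 7 → List ℕ} (hP : ∀ i, ∀ a ∈ P i, a < K) {z : List ℕ}
    (hz : z.Sublist (U K M P)) (hm : K + 7 ∈ z) : ∃ z', z = z' ++ [K + 7] := by
  have hnot : K + 7 ∉ (List.finRange 7).flatMap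
      (fun i => List.replicate M (K + i.1) ++ P i) := by
    intro hK
    rw [List.mem_flatMap] at hK
    obtain ⟨i, _, hi⟩ := hK
    rw [List.mem_append] at hi
    rcases hi with hi | hi
    · have := List.eq_of_mem_replicate hi
      omega
    · have := hP i _ hi
      omega
  unfold U at hz
  obtain ⟨z1, z2, rfl, h1, h2⟩ := List.sublist_append_iff.1 hz
  rcases List.eq_nil_or_concat z2 with rfl | ⟨z3, a, rfl⟩
  · exfalso
    rw [List.append_nil] at hm
    exact hnot (h1.subset hm)
  · have : a = K + 7 := List.eq_of_mem_replicate (h2.subset (by simp))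
    exact ⟨z1 ++ z3, by rw [this]; simp⟩

lemma len_count {x z : List ℕ} (h : z.Sublist x) (a : ℕ) :
    z.length + x.count a ≤ x.length + z.count a := by
  have h1 := List.length_eq_countP_add_countP (fun b => b == a) (l := x)
  have h2 := List.length_eq_countP_add_countP (fun b => b == a) (l := z)
  have h3 : z.countP (fun b => decide ¬(b == a) = true) ≤ x.countP (fun b => decide ¬(b == a) = true) :=
    h.countP_le
  simp only [List.count]
  omega

lemma len_lo {x z : List ℕ} (h : z.Sublist x) (p : ℕ → Bool) :
    z.length + x.countP p ≤ x.length + z.countP p := by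
  have h1 := List.length_eq_countP_add_countP p (l := x)
  have h2 := List.length_eq_countP_add_countP p (l := z)
  have h3 : z.countP (fun b => decide ¬(p b) = true) ≤ x.countP (fun b => decide ¬(p b) = true) :=
    h.countP_le
  omega

/-- the case of a factor inside one block -/
lemma inner {P Q : Fin 7 → List ℕ} (hP : ∀ i, ∀ a ∈ P i, a < K) (hQ : ∀ i, ∀ a ∈ Q i, a < K)
    (hfar : ∀ q : Fin 7 → List ℕ, (∀ i, (q i).Sublist (P i)) → (∀ i, (q i).Sublist (Q i)) →
      c + 2 * ∑ i, (q i).length ≤ ∑ i, ((P i).length + (Q i).length))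
    {z V A B : List ℕ} (hz : z.Sublist (U K M P)) (hm : ∀ i ≤ 7, K + i ∈ z)
    (hV : A ++ (V ++ B) = U K M Q) (hzV : z.Sublist V) :
    c + 2 * z.length ≤ (U K M P).length + V.length := by
  have hK : K ∈ V := by simpa using hzV.subset (hm 0 (by norm_num))
  have hK7 : K + 7 ∈ V := hzV.subset (hm 7 le_rfl)
  have hA := pre_marker hQ hV (by simp [hK])
  have hB := post_marker hQ (W := A ++ V) (B := B) (by rw [List.append_assoc]; exact hV)
    (by simp [hK7])
  have hzQ : z.Sublist (U K M Q) := by
    rw [← hV]
    exact hzV.trans ((List.sublist_append_left V B).trans (List.sublist_append_right A _))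
  have hz' := hz
  have hzQ' := hzQ
  rw [U_eq] at hz' hzQ'
  obtain ⟨rs, hr1, hr2, hr3⟩ := split_Ug (K0 := K) _ _ K le_rfl (by simp) (lowQ hP) (lowQ hQ) z
    hz' hzQ' (by simpa using hm)
  -- the pieces
  obtain ⟨r0, s0, h0, k0, e0⟩ := List.forall₂_cons_right_iff.1 hr1
  obtain ⟨r1, s1, h1, k1, e1⟩ := List.forall₂_cons_right_iff.1 k0
  obtain ⟨r2, s2, h2, k2, e2⟩ := List.forall₂_cons_right_iff.1 k1
  obtain ⟨r3, s3, h3, k3, e3⟩ := List.forall₂_cons_right_iff.1 k2
  obtain ⟨r4, s4, h4, k4, e4⟩ := List.forall₂_cons_right_iff.1 k3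
  obtain ⟨r5, s5, h5, k5, e5⟩ := List.forall₂_cons_right_iff.1 k4
  obtain ⟨r6, s6, h6, k6, e6⟩ := List.forall₂_cons_right_iff.1 k5
  rw [List.forall₂_nil_right_iff] at k6
  subst k6 e6 e5 e4 e3 e2 e1 e0
  simp only [List.forall₂_cons, List.Forall₂.nil, and_true] at hr2
  obtain ⟨g0, g1, g2, g3, g4, g5, g6⟩ := hr2
  have hq := hfar ![r0, r1, r2, r3, r4, r5, r6]
    (by intro i; fin_cases i <;> assumption) (by intro i; fin_cases i <;> assumption)
  have hsum : ∑ i, ((![r0, r1, r2, r3, r4, r5, r6] : Fin 7 → List ℕ) i).length
      = z.countP (fun a => decide (a < K)) := by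
    rw [List.countP_eq_length_filter, hr3]
    simp [Fin.sum_univ_succ]
  rw [hsum, Finset.sum_add_distrib] at hq
  have l1 := lo_U (K := K) (M := M) hP
  have l2 := lo_U (K := K) (M := M) hQ
  have l3 := len_lo hz (fun a => decide (a < K))
  have l4 := len_lo hzV (fun a => decide (a < K))
  have l5 : V.countP (fun a => decide (a < K)) = (U K M Q).countP (fun a => decide (a < K)) := by
    rw [← hV, List.countP_append, List.countP_append]
    have a1 : A.countP (fun a => decide (a < K)) = 0 := by
      rw [List.countP_eq_zero]; intro a ha; rw [hA a ha]; simp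
    have b1 : B.countP (fun a => decide (a < K)) = 0 := by
      rw [List.countP_eq_zero]; intro a ha; rw [hB a ha]; simp
    rw [a1, b1]; simp
  omega

lemma main_ind (hc : c ≤ M) {P : Fin 7 → List ℕ} (hP : ∀ i, ∀ a ∈ P i, a < K) {z : List ℕ}
    (hz : z.Sublist (U K M P)) (hm : ∀ i ≤ 7, K + i ∈ z) :
    ∀ (Us : List (Fin 7 → List ℕ)), (∀ Q ∈ Us, ∀ i, ∀ a ∈ Q i, a < K) →
      (∀ Q ∈ Us, ∀ q : Fin 7 → List ℕ, (∀ i, (q i).Sublist (P i)) →
      (∀ i, (q i).Sublist (Q i)) →
      c + 2 * ∑ i, (q i).length ≤ ∑ i, ((P i).length + (Q i).length)) →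
      ∀ V A B : List ℕ, A ++ (V ++ B) = Us.flatMap (U K M) → z.Sublist V →
        c + 2 * z.length ≤ (U K M P).length + V.length := by
  intro Us
  induction Us with
  | nil =>
    intro _ _ V A B h hzV
    simp only [List.flatMap_nil, List.append_eq_nil_iff] at h
    obtain ⟨_, rfl, _⟩ := h
    have := hzV.subset (hm 0 (by norm_num))
    simp at this
  | cons Q Us ih =>
    intro hU hfar V A B h hzV
    have ih' := ih (fun Q' hQ' => hU Q' (by simp [hQ'])) (fun Q' hQ' => hfar Q' (by simp [hQ']))
    have hQ := hU Q (by simp)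
    have hfQ := hfar Q (by simp)
    rw [List.flatMap_cons, List.append_eq_append_iff] at h
    rcases h with ⟨a', h1, h2⟩ | ⟨c', h1, h2⟩
    · rw [List.append_eq_append_iff] at h2
      rcases h2 with ⟨a'', h3, h4⟩ | ⟨c', h3, h4⟩
      · -- the factor is inside the first block
        exact inner hP hQ hfQ hz hm (by rw [h1, h3]) hzV
      · -- the factor crosses the end of the first block
        rw [h3] at hzV
        obtain ⟨z1, z2, rfl, g1, g2⟩ := List.sublist_append_iff.1 hzV
        by_cases hz1 : z1 = []
        · subst hz1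
          have := ih' c' [] B (by rw [h4]; rfl) (by simpa using g2)
          simp only [h3, List.length_append, List.length_nil, List.nil_append] at this ⊢
          omega
        by_cases hz2 : z2 = []
        · subst hz2
          have := inner hP hQ hfQ hz hm (V := a') (A := A) (B := []) (by rw [h1, List.append_nil])
            (by simpa using g1)
          simp only [h3, List.length_append, List.length_nil, List.append_nil] at this ⊢
          omega
        -- both parts are nonempty
        have hz' := hz
        rw [U_eq] at hz'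
        obtain ⟨w, hw⟩ := head_Ug le_rfl _ (lowQ hP) _ hz' (by simpa using hm 0 (by norm_num))
        obtain ⟨w', hw'⟩ := last_U hP hz (hm 7 le_rfl)
        have hKa : K ∈ a' := by
          apply g1.subset
          cases z1 with
          | nil => exact absurd rfl hz1
          | cons b z1 =>
            simp only [List.cons_append, List.cons.injEq] at hw
            rw [hw.1]; simp
        have hKc : K + 7 ∈ c' := by
          apply g2.subset
          rcases List.eq_nil_or_concat z2 with h | ⟨z3, b, rfl⟩
          · exact absurd h hz2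
          · rw [List.concat_eq_append, ← List.append_assoc] at hw'
            have := List.append_inj_right' hw' (by simp)
            simp only [List.cons.injEq, and_true] at this
            rw [this]; simp
        have hA := pre_marker hQ h1.symm hKa
        have c1 : a'.count (K + 1) = M := by
          have e := count_U (K := K) (M := M) hQ 1 (by norm_num)
          rw [h1, List.count_append] at e
          have : A.count (K + 1) = 0 := by
            rw [List.count_eq_zero]
            intro hh
            have := hA _ hh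
            omega
          omega
        have c2 : M ≤ c'.count (K + 1) := by
          cases Us with
          | nil =>
            simp only [List.flatMap_nil] at h4
            have := List.append_eq_nil_iff.1 h4.symm
            rw [this.1] at hKc
            simp at hKc
          | cons Q' Us =>
            have hQ' := hU Q' (by simp)
            obtain ⟨post, hpost⟩ := U_pre (K := K) (M := M) Q'
            rw [List.flatMap_cons, hpost, List.append_assoc] at h4
            have hnot : K + 7 ∉ List.replicate M K ++ (Q' 0 ++ List.replicate M (K + 1)) := by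
              intro hh
              simp only [List.mem_append, List.mem_replicate] at hh
              have hq : K + 7 ∉ Q' 0 := fun hi => by have := hQ' 0 _ hi; omega
              simp only [hq, false_or] at hh
              omega
            have h5 := h4
            rw [List.append_eq_append_iff] at h5
            rcases h5 with ⟨b', h6, _⟩ | ⟨b', h6, _⟩
            · rw [h6]
              simp only [List.count_append, List.count_replicate_self]
              omega
            · exfalso
              apply hnot
              rw [h6]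
              simp [hKc]
        have c3 := count_U (K := K) (M := M) hP 1 (by norm_num)
        have c4 : (z1 ++ z2).count (K + 1) ≤ M := by
          rw [← c3]; exact hz.count_le _
        have c5 := len_count (g1.append g2) (K + 1)
        rw [List.count_append, c1] at c5
        have c6 := hz.length_le
        rw [h3]
        omega
    · -- the first block is skipped
      exact ih' V c' B h2.symm hzV

end Co

theorem core {K M c : ℕ} (hc : c ≤ M) (P : Fin 7 → List ℕ) (Us : List (Fin 7 → List ℕ))
    (hP : ∀ i, ∀ a ∈ P i, a < K) (hU : ∀ Q ∈ Us, ∀ i, ∀ a ∈ Q i, a < K)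
    (hfar : ∀ Q ∈ Us, ∀ q : Fin 7 → List ℕ, (∀ i, (q i).Sublist (P i)) →
      (∀ i, (q i).Sublist (Q i)) →
      c + 2 * ∑ i, (q i).length ≤ ∑ i, ((P i).length + (Q i).length))
    (V A B : List ℕ) (hV : A ++ (V ++ B) = Us.flatMap (U K M)) :
    Far c (U K M P) V := by
  intro z hz hzV
  by_cases hm : ∀ i ≤ 7, K + i ∈ z
  · exact Co.main_ind hc hP hz hm Us hU hfar V A B hV hzV
  · push Not at hm
    obtain ⟨i, hi, hni⟩ := hm
    have h1 := Co.count_U (K := K) (M := M) hP i hi
    have h2 := Co.len_count hz (K + i)
    rw [h1, List.count_eq_zero.2 hni] at h2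
    have h3 := hzV.length_le
    omega

end Vale.Agent.P238S
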