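import Vale.Agent.P238.Defs

/-!
P238, second hand-in (lower bound `exp (c sqrt (log n))`): definitions.
-/

namespace Vale.Agent.P238S

/-- the insertion-deletion distance of `x` and `y` is at least `E` -/
def Far {α : Type*} (E : ℕ) (x y : List α) : Prop :=
  ∀ z : List α, z.Sublist x → z.Sublist y → E + 2 * z.length ≤ x.length + y.length

/-- the insertion-deletion distance of `x` and `y` is at most `k` -/
def Near {α : Type*} (k : ℕ) (x y : List α) : Prop :=
  ∃ z : List α, z.Sublist x ∧ z.Sublist y ∧ x.length + y.length ≤ k + 2 * z.length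

/-- the word `#₀^M P₀ #₁^M P₁ … #₆^M P₆ #₇^M` with the markers `#ᵢ = K + i` -/
def U (K M : ℕ) (P : Fin 7 → List ℕ) : List ℕ :=
  (List.finRange 7).flatMap (fun i => List.replicate M (K + i.1) ++ P i)
    ++ List.replicate M (K + 7)

/-- the `T`-fold repetition of a word -/
def rp {α : Type*} (T : ℕ) (w : List α) : List α := (List.replicate T w).flatten

/-- apply `τ` at the coordinates where `c` is true -/
def act {X : Type*} (τ : X → X) (c : Fin 7 → Bool) (x : Fin 7 → X) : Fin 7 → X :=
  fun i => if c i then τ (x i) else x i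

/-- the `k`-th bit of `i + 1`: the coordinates `i : Fin 7` are the nonzero vectors of `F_2^3` -/
def cd (k : Fin 3) (i : Fin 7) : Bool := Nat.testBit (i.1 + 1) k.1

/-- lists of blocks (nested repetitions) -/
def B1 {X : Type*} (τ : X → X) (T : ℕ) (x : Fin 7 → X) : List (Fin 7 → X) :=
  rp T ([x] ++ [act τ (cd 0) x])

def B2 {X : Type*} (τ : X → X) (T : ℕ) (x : Fin 7 → X) : List (Fin 7 → X) :=
  rp T (B1 τ T x ++ B1 τ T (act τ (cd 1) x))

def B3 {X : Type*} (τ : X → X) (T : ℕ) (x : Fin 7 → X) : List (Fin 7 → X) :=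
  rp T (B2 τ T x ++ B2 τ T (act τ (cd 2) x))

/-- the word of the next level -/
def nx {X : Type*} (K M T : ℕ) (τ : X → X) (φ : X → List ℕ) (x : Fin 7 → X) : List ℕ :=
  (B3 τ T x).flatMap (fun z => U K M (fun i => φ (z i)))

/-- The induction statement: a finite set `X` with an involution `τ` and words `φ x` of length `ℓ`
with symbols `< K`, such that `φ x`, `φ (τ x)` have distance at least `E` for all `x`, while a
weighted family of near moves of total mass `ν` dominates `τ` for all cuts. -/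
def Good (K ℓ E : ℕ) (ν : ℝ) : Prop :=
  ∃ (X : Type) (_ : Fintype X) (_ : Nonempty X) (τ : X → X) (φ : X → List ℕ)
    (ι : Type) (_ : Fintype ι) (w : ι → ℝ) (n : ι → X → X) (c : ι → ℕ),
    (∀ x, τ (τ x) = x) ∧ (∀ x, (φ x).length = ℓ) ∧ (∀ x, ∀ a ∈ φ x, a < K) ∧
    (∀ x, Far E (φ x) (φ (τ x))) ∧ (∀ j, 0 ≤ w j) ∧ (∀ j x, n j (τ x) = τ (n j x)) ∧
    (∀ j x, Near (c j) (φ x) (φ (n j x))) ∧
    (∀ g : X → ℝ, (∀ x, g x = 0 ∨ g x = 1) →
      ∑ x, |g x - g (τ x)| ≤ ∑ j, w j * ∑ x, |g x - g (n j x)|) ∧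
    ∑ j, w j * (c j : ℝ) ≤ ν

/-- comma-free binary code of the symbol `s ≤ q` -/
def enc (q s : ℕ) : List Bool :=
  List.replicate (q + 2) true ++ (false :: (List.replicate s true ++
    (false :: (List.replicate (q - s) true ++ [false]))))

/-- binary code of a word -/
def encw (q : ℕ) (x : List ℕ) : List Bool := x.flatMap (enc q)

end Vale.Agent.P238S
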