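import Vale.Agent.P238S.Defs
import Vale.Agent.P238.EdBlock
import Vale.Agent.P238.EdUp

/-!
P238S, piece [ENC]: a comma-free binary code.
-/

namespace Vale.Agent.P238S

namespace EncAux

open P238 P238.EdB

theorem enc_length {q s : ℕ} (h : s ≤ q) : (enc q s).length = 2 * q + 5 := by
  unfold enc
  simp only [List.length_append, List.length_cons, List.length_replicate, List.length_nil]
  omega

theorem encw_cons (q a : ℕ) (x : List ℕ) : encw q (a :: x) = enc q a ++ encw q x := by
  unfold encw
  rw [List.flatMap_cons]

theorem encw_nil (q : ℕ) : encw q [] = [] := rfl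

/-- the first run of ones -/
theorem rep_inj {a b : ℕ} {r r' : List Bool}
    (h : List.replicate a true ++ false :: r = List.replicate b true ++ false :: r') :
    a = b ∧ r = r' := by
  induction a generalizing b with
  | zero =>
    cases b with
    | zero => simpa using h
    | succ b => simp [List.replicate_succ] at h
  | succ a ih =>
    cases b with
    | zero => simp [List.replicate_succ] at h
    | succ b =>
      simp only [List.replicate_succ, List.cons_append, List.cons.injEq, true_and] at h
      obtain ⟨h1, h2⟩ := ih h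
      exact ⟨by omega, h2⟩

theorem rep_le {n j : ℕ} {r r' : List Bool}
    (h : List.replicate n true ++ r = List.replicate j true ++ false :: r') : n ≤ j := by
  induction n generalizing j with
  | zero => exact Nat.zero_le _
  | succ n ih =>
    cases j with
    | zero => simp [List.replicate_succ] at h
    | succ j =>
      simp only [List.replicate_succ, List.cons_append, List.cons.injEq, true_and] at h
      have := ih h
      omega

theorem enc_inj {q a b : ℕ} (h : enc q a = enc q b) : a = b := by
  unfold enc at h
  have h1 := List.append_cancel_left h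
  simp only [List.cons.injEq, true_and] at h1
  exact (rep_inj h1).1

theorem suf {n : ℕ} {u t : List Bool} (h : t <:+ List.replicate n true ++ false :: u) :
    t <:+ u ∨ ∃ j ≤ n, t = List.replicate j true ++ false :: u := by
  induction n with
  | zero =>
    simp only [List.replicate_zero, List.nil_append] at h
    rcases List.suffix_cons_iff.mp h with h | h
    · exact Or.inr ⟨0, le_rfl, by simpa using h⟩
    · exact Or.inl h
  | succ n ih =>
    simp only [List.replicate_succ, List.cons_append] at h
    rcases List.suffix_cons_iff.mp h with h | h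
    · exact Or.inr ⟨n + 1, le_rfl, by simpa [List.replicate_succ] using h⟩
    · rcases ih h with h | ⟨j, hj, h⟩
      · exact Or.inl h
      · exact Or.inr ⟨j, by omega, h⟩

/-- the proper suffixes of a code word -/
theorem suf_enc {q b : ℕ} (hb : b ≤ q) {t : List Bool} (h : t <:+ enc q b) :
    t = [] ∨ t = enc q b ∨ ∃ j ≤ q + 1, ∃ r, t = List.replicate j true ++ false :: r := by
  unfold enc at h
  rcases suf h with h | ⟨j, hj, h⟩
  · rcases suf h with h | ⟨j, hj, h⟩
    · rcases suf h with h | ⟨j, hj, h⟩
      · left
        simpa using h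
      · exact Or.inr (Or.inr ⟨j, by omega, _, h⟩)
    · exact Or.inr (Or.inr ⟨j, by omega, _, h⟩)
  · rcases Nat.lt_or_ge j (q + 2) with h1 | h1
    · exact Or.inr (Or.inr ⟨j, by omega, _, h⟩)
    · have : j = q + 2 := by omega
      subst this
      exact Or.inr (Or.inl h)

theorem comma_free {q a : ℕ} (ha : a ≤ q) (m : ℕ) (w : List Bool) :
    ∀ y : List ℕ, (∀ b ∈ y, b ≤ q) →
      (enc q a ++ w) <:+ (encw q y ++ List.replicate m false) →
      ∃ y1 y2, y = y1 ++ a :: y2 ∧ w = encw q y2 ++ List.replicate m false := by
  intro y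
  induction y with
  | nil =>
    intro _ h
    rw [encw_nil, List.nil_append] at h
    have h1 : true ∈ enc q a ++ w := by
      unfold enc
      simp [List.replicate_succ]
    have h2 := h.subset h1
    rw [List.mem_replicate] at h2
    exact absurd h2.2 (by decide)
  | cons b y ih =>
    intro hy h
    rw [encw_cons, List.append_assoc] at h
    have hb : b ≤ q := hy b (by simp)
    have hy' : ∀ c ∈ y, c ≤ q := fun c hc => hy c (by simp [hc])
    have hrec : (enc q a ++ w) <:+ (encw q y ++ List.replicate m false) →
        ∃ y1 y2, b :: y = y1 ++ a :: y2 ∧ w = encw q y2 ++ List.replicate m false := by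
      intro h
      obtain ⟨y1, y2, h1, h2⟩ := ih hy' h
      exact ⟨b :: y1, y2, by rw [h1]; rfl, h2⟩
    obtain ⟨t, ht⟩ := h
    rcases List.append_eq_append_iff.mp ht with ⟨c, h1, h2⟩ | ⟨c, h1, h2⟩
    · -- the code word starts inside the code word of `b`
      have hc : c <:+ enc q b := ⟨t, h1.symm⟩
      rcases suf_enc hb hc with hc | hc | ⟨j, hj, r, hc⟩
      · subst hc
        rw [List.nil_append] at h2
        exact hrec (by rw [h2])
      · subst hc
        have h3 := List.append_inj h2 (by rw [enc_length ha, enc_length hb])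
        have := enc_inj h3.1
        subst this
        exact ⟨[], y, rfl, h3.2⟩
      · exfalso
        subst hc
        unfold enc at h2
        rw [List.append_assoc, List.append_assoc, List.cons_append] at h2
        have := rep_le h2
        omega
    · exact hrec ⟨c, h2.symm⟩

theorem claim {q : ℕ} (m' : ℕ) : ∀ (x : List ℕ), (∀ a ∈ x, a ≤ q) → ∀ (y : List ℕ),
    (∀ a ∈ y, a ≤ q) → ∀ (m : ℕ) (w : List Bool) (k : ℕ),
    w <:+ encw q y ++ List.replicate m false → Al k (encw q x ++ List.replicate m' false) w →
    ∃ z : List ℕ, z.Sublist x ∧ z.Sublist y ∧ x.length ≤ z.length + k := by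
  intro x
  induction x with
  | nil =>
    intro _ y _ m w k _ _
    exact ⟨[], List.nil_sublist _, List.nil_sublist _, by simp⟩
  | cons a x ih =>
    intro hx y hy m w k hw hA
    have ha : a ≤ q := hx a (by simp)
    have hx' : ∀ c ∈ x, c ≤ q := fun c hc => hx c (by simp [hc])
    rw [encw_cons, List.append_assoc] at hA
    obtain ⟨w1, w2, k1, k2, rfl, rfl, h1, h2⟩ := al_split_left hA _ _ rfl
    rcases Nat.eq_zero_or_pos k1 with hk | hk
    · subst hk
      have e : enc q a = w1 := EdUp.reach_zero (reach_of_al h1) rfl
      subst e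
      obtain ⟨y1, y2, hy1, hw2⟩ := comma_free ha m w2 y hy hw
      have hy2 : ∀ c ∈ y2, c ≤ q := fun c hc => hy c (by rw [hy1]; simp [hc])
      obtain ⟨z, hz1, hz2, hz3⟩ := ih hx' y2 hy2 m w2 k2 (by rw [hw2]) h2
      refine ⟨a :: z, hz1.cons_cons a, ?_, by simp only [List.length_cons]; omega⟩
      rw [hy1]
      exact (hz2.cons_cons a).trans (List.sublist_append_right _ _)
    · obtain ⟨z, hz1, hz2, hz3⟩ := ih hx' y hy m w2 k2
        ((List.suffix_append w1 w2).trans hw) h2
      exact ⟨z, hz1.trans (List.sublist_cons_self _ _), hz2, by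
        simp only [List.length_cons]; omega⟩

/-- deleting all letters -/
theorem al_nil {α : Type*} (u : List α) : Al u.length u [] := by
  induction u with
  | nil => exact Al.nil
  | cons a u ih => exact Al.del a ih

theorem al_encw {q : ℕ} {x z : List ℕ} (h : z.Sublist x) (hx : ∀ a ∈ x, a ≤ q) :
    ∃ j, j + (2 * q + 5) * z.length = (2 * q + 5) * x.length ∧ Al j (encw q x) (encw q z) := by
  induction h with
  | slnil => exact ⟨0, by simp, al_refl _⟩
  | @cons z x a h ih =>
    obtain ⟨j, hj, hA⟩ := ih fun c hc => hx c (by simp [hc])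
    refine ⟨(2 * q + 5) + j, ?_, ?_⟩
    · rw [List.length_cons, mul_add, mul_one]
      omega
    · rw [encw_cons]
      have h1 := al_append (al_nil (enc q a)) hA
      rw [enc_length (hx a (by simp))] at h1
      simpa using h1
  | @cons_cons z x a h ih =>
    obtain ⟨j, hj, hA⟩ := ih fun c hc => hx c (by simp [hc])
    refine ⟨j, ?_, ?_⟩
    · rw [List.length_cons, List.length_cons, mul_add, mul_add, mul_one]
      omega
    · rw [encw_cons, encw_cons]
      have h1 := al_append (al_refl (enc q a)) hA
      simpa using h1

end EncAux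

open EncAux P238 P238.EdB

theorem encw_length (q : ℕ) (x : List ℕ) (hx : ∀ a ∈ x, a ≤ q) :
    (encw q x).length = (2 * q + 5) * x.length := by
  induction x with
  | nil => simp [encw]
  | cons a x ih =>
    rw [encw_cons, List.length_append, enc_length (hx a (by simp)),
      ih fun c hc => hx c (by simp [hc]), List.length_cons]
    ring

theorem enc_far (q m E : ℕ) (x y : List ℕ) (hx : ∀ a ∈ x, a ≤ q) (hy : ∀ a ∈ y, a ≤ q)
    (hl : x.length = y.length) (h : Far E x y) :
    E ≤ 2 * P238.ED (encw q x ++ List.replicate m false) (encw q y ++ List.replicate m false) := by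
  obtain ⟨j, hj, hA⟩ := al_of_reach (reach_ED (encw q x ++ List.replicate m false)
    (encw q y ++ List.replicate m false))
  obtain ⟨z, hz1, hz2, hz3⟩ := claim m x hx y hy m _ j (List.suffix_refl _) hA
  have := h z hz1 hz2
  omega

theorem enc_near (q k : ℕ) (x y : List ℕ) (hx : ∀ a ∈ x, a ≤ q) (hy : ∀ a ∈ y, a ≤ q)
    (h : Near k x y) (t : List Bool) :
    P238.ED (encw q x ++ t) (encw q y ++ t) ≤ (2 * q + 5) * k := by
  obtain ⟨z, hz1, hz2, hz3⟩ := h
  obtain ⟨i, hi, hAi⟩ := al_encw hz1 hx
  obtain ⟨j, hj, hAj⟩ := al_encw hz2 hy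
  have h1 : P238.ED (encw q x ++ t) (encw q z ++ t) ≤ i := by
    have := al_append hAi (al_refl t)
    exact P238.ED_le (reach_of_al this)
  have h2 : P238.ED (encw q y ++ t) (encw q z ++ t) ≤ j := by
    have := al_append hAj (al_refl t)
    exact P238.ED_le (reach_of_al this)
  have h3 := P238.ED_triangle (encw q x ++ t) (encw q z ++ t) (encw q y ++ t)
  rw [P238.ED_comm (encw q z ++ t)] at h3
  have h4 : (2 * q + 5) * (x.length + y.length) ≤ (2 * q + 5) * (k + 2 * z.length) :=
    Nat.mul_le_mul_left _ hz3
  nlinarith

end Vale.Agent.P238S
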