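import Vale.Agent.P238S.Defs

/-!
P238S [FCAT]: superadditivity over a concatenation.
-/

namespace Vale.Agent.P238S

/-- superadditivity over a concatenation -/
theorem far_cat {α : Type} (c : ℕ) (Ps : List (List α)) (W : List α)
    (h : ∀ P ∈ Ps, ∀ V A B, A ++ (V ++ B) = W → Far c P V) :
    Far (Ps.length * c) Ps.flatten W := by
  induction Ps generalizing W with
  | nil =>
    intro z hz hz'
    have h2 : z = [] := by simpa using hz
    simp [h2]
  | cons P Ps ih =>
    intro z hz hz'
    rw [List.flatten_cons, List.sublist_append_iff] at hz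
    obtain ⟨z1, z2, rfl, h1, h2⟩ := hz
    rw [List.append_sublist_iff] at hz'
    obtain ⟨V, W', rfl, h3, h4⟩ := hz'
    have e1 := h P (by simp) V [] W' (by simp) z1 h1 h3
    have e2 := ih W' (fun P' hP' V' A B hVB => h P' (by simp [hP']) V' (V ++ A) B
      (by rw [← hVB]; simp)) z2 h2 h4
    simp only [List.length_cons, List.length_append, List.flatten_cons] at e1 e2 ⊢
    nlinarith [e1, e2]

end Vale.Agent.P238S
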