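import Vale.Agent.P238S.Step

/-!
P238S [ITER]: iteration of the composition step.
-/

namespace Vale.Agent.P238S

/-- monotonicity in the mass -/
theorem Good.mono {K ℓ E : ℕ} {ν ν' : ℝ} (h : Good K ℓ E ν) (hν : ν ≤ ν') : Good K ℓ E ν' := by
  obtain ⟨X, h1, h2, τ, φ, ι, h3, w, n, c, a1, a2, a3, a4, a5, a6, a7, a8, a9⟩ := h
  exact ⟨X, h1, h2, τ, φ, ι, h3, w, n, c, a1, a2, a3, a4, a5, a6, a7, a8, a9.trans hν⟩

theorem good_iter_aux (T : ℕ) (hT : 1 ≤ T) (j : ℕ) :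
    ∃ ν : ℝ, Good (2 + 8 * j) ((440 * T ^ 3) ^ j) (2 * (24 * T ^ 3) ^ j) ν ∧
      T * ν ≤ (56 / 3 * T ^ 3) ^ j * (2 * T + 4 * 24 ^ j) := by
  induction j with
  | zero =>
    refine ⟨2, by simpa using good_zero, ?_⟩
    norm_num
    linarith
  | succ j ih =>
    obtain ⟨ν, hg, hν⟩ := ih
    have hE : 2 * (24 * T ^ 3) ^ j ≤ 2 * (440 * T ^ 3) ^ j := by
      gcongr
      norm_num
    have h1 := good_step T hT hg hE
    refine ⟨_, by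
      have e1 : 2 + 8 * (j + 1) = 2 + 8 * j + 8 := by ring
      have e2 : (440 * T ^ 3) ^ (j + 1) = 440 * T ^ 3 * (440 * T ^ 3) ^ j := by ring
      have e3 : 2 * (24 * T ^ 3) ^ (j + 1) = 24 * T ^ 3 * (2 * (24 * T ^ 3) ^ j) := by ring
      rw [e1, e2, e3]
      exact h1, ?_⟩
    have hT' : (0 : ℝ) ≤ T := by positivity
    have key : (880 : ℝ) * 440 ^ j ≤ 56 / 3 * (92 * ((56 / 3) ^ j * 24 ^ j)) := by
      rw [← mul_pow]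
      have : (440 : ℝ) ^ j ≤ (56 / 3 * 24) ^ j := by gcongr; norm_num
      have h0 : (0 : ℝ) ≤ 440 ^ j := by positivity
      nlinarith
    have key2 : (880 : ℝ) * T ^ 2 * (440 * T ^ 3) ^ j * T
        ≤ 56 / 3 * (92 * ((56 / 3) ^ j * 24 ^ j)) * (T ^ 3 * (T ^ 3) ^ j) := by
      calc (880 : ℝ) * T ^ 2 * (440 * T ^ 3) ^ j * T
          = (880 * 440 ^ j) * (T ^ 3 * (T ^ 3) ^ j) := by rw [mul_pow]; ring
        _ ≤ _ := by gcongr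
    push_cast
    generalize (T : ℝ) = t at *
    calc t * (56 / 3 * t ^ 3 * ν + 880 * t ^ 2 * (440 * t ^ 3) ^ j)
        = 56 / 3 * t ^ 3 * (t * ν) + 880 * t ^ 2 * (440 * t ^ 3) ^ j * t := by ring
      _ ≤ 56 / 3 * t ^ 3 * ((56 / 3 * t ^ 3) ^ j * (2 * t + 4 * 24 ^ j))
          + 56 / 3 * (92 * ((56 / 3) ^ j * 24 ^ j)) * (t ^ 3 * (t ^ 3) ^ j) := by gcongr
      _ = (56 / 3 * t ^ 3) ^ (j + 1) * (2 * t + 4 * 24 ^ (j + 1)) := by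
        rw [mul_pow, mul_pow, pow_succ (56 / 3 : ℝ), pow_succ (24 : ℝ), pow_succ (t ^ 3)]
        ring

theorem good_iter (J : ℕ) :
    Good (2 + 8 * J) ((440 * 32 ^ (3 * J)) ^ J) (2 * (24 * 32 ^ (3 * J)) ^ J)
      (6 * (24 * 32 ^ (3 * J)) ^ J * (7 / 9 : ℝ) ^ J) := by
  obtain ⟨ν, hg, hν⟩ := good_iter_aux (32 ^ J) (Nat.one_le_pow _ _ (by norm_num)) J
  have e : ((32 : ℕ) ^ J) ^ 3 = 32 ^ (3 * J) := by rw [← pow_mul, mul_comm]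
  rw [e] at hg
  refine hg.mono ?_
  push_cast at hν
  have e' : ((32 : ℝ) ^ J) ^ 3 = 32 ^ (3 * J) := by rw [← pow_mul, mul_comm]
  rw [e'] at hν
  have h24 : (24 : ℝ) ^ J ≤ 32 ^ J := by gcongr; norm_num
  have hpos : (0 : ℝ) < 32 ^ J := by positivity
  have h1 : (56 / 3 * 32 ^ (3 * J) : ℝ) ^ J * (2 * 32 ^ J + 4 * 24 ^ J)
      ≤ (56 / 3 * 32 ^ (3 * J) : ℝ) ^ J * (6 * 32 ^ J) := by
    gcongr
    linarith
  have h2 : (56 / 3 * 32 ^ (3 * J) : ℝ) ^ J = (24 * 32 ^ (3 * J)) ^ J * (7 / 9 : ℝ) ^ J := by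
    rw [← mul_pow]
    congr 1
    ring
  rw [h2] at h1 hν
  have h3 := hν.trans h1
  have h4 : (32 : ℝ) ^ J * ν ≤ 32 ^ J * (6 * (24 * 32 ^ (3 * J)) ^ J * (7 / 9 : ℝ) ^ J) := by
    calc (32 : ℝ) ^ J * ν ≤ _ := h3
      _ = _ := by ring
  exact le_of_mul_le_mul_left h4 hpos

end Vale.Agent.P238S
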