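import Vale.Agent.P238S.FinAux
import Vale.Agent.P238S.Iter
import Vale.Agent.P238S.C1

/-!
P238: final assembly of the lower bound `exp (c √(log n))`.
-/

namespace Vale.Agent.P238S

open Vale.Agent

theorem main_exp : ∃ c : ℝ, 0 < c ∧ ∃ N : ℕ, ∀ n ≥ N,
    Real.exp (c * Real.sqrt (Real.log n)) ≤ P238.c1 (Fin n → Bool) (P238.edDist n) :=
  main_exp_of good_iter (fun h hν n hn => c1_of_good h hν n hn)

end Vale.Agent.P238S
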