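import Vale.Agent.P238S.Defs

/-!
P238S: asymptotics.
-/

namespace Vale.Agent.P238S

open Filter

theorem fin_size {J : ℕ} (hJ : 1 ≤ J) :
    (((2 * (2 + 8 * J) + 5) * (440 * 32 ^ (3 * J)) ^ J : ℕ) : ℝ) ≤ Real.exp (49 * (J : ℝ) ^ 2) := by
  have hJ' : (1 : ℝ) ≤ J := by exact_mod_cast hJ
  have he : (2.7 : ℝ) ≤ Real.exp 1 := by
    have := Real.exp_one_gt_d9
    linarith
  have h1 : ((2 * (2 + 8 * J) + 5 : ℕ) : ℝ) ≤ Real.exp (16 * J + 8) := by
    have := Real.add_one_le_exp (16 * (J : ℝ) + 8)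
    push_cast
    linarith
  have h2 : (440 : ℝ) ≤ Real.exp 7 := by
    have e : Real.exp 7 = Real.exp 1 ^ 7 := by
      rw [← Real.exp_nat_mul]
      norm_num
    rw [e]
    calc (440 : ℝ) ≤ 2.7 ^ 7 := by norm_num
      _ ≤ Real.exp 1 ^ 7 := pow_le_pow_left₀ (by norm_num) he 7
  have h3 : (32 : ℝ) ≤ Real.exp 4 := by
    have e : Real.exp 4 = Real.exp 1 ^ 4 := by
      rw [← Real.exp_nat_mul]
      norm_num
    rw [e]
    calc (32 : ℝ) ≤ 2.7 ^ 4 := by norm_num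
      _ ≤ Real.exp 1 ^ 4 := pow_le_pow_left₀ (by norm_num) he 4
  have h4 : (32 : ℝ) ^ (3 * J) ≤ Real.exp (12 * J) := by
    calc (32 : ℝ) ^ (3 * J) ≤ Real.exp 4 ^ (3 * J) := pow_le_pow_left₀ (by norm_num) h3 _
      _ = Real.exp (12 * J) := by
          rw [← Real.exp_nat_mul]
          congr 1
          push_cast
          ring
  have h5 : (440 * (32 : ℝ) ^ (3 * J)) ^ J ≤ Real.exp (7 * J + 12 * J ^ 2) := by
    calc (440 * (32 : ℝ) ^ (3 * J)) ^ J ≤ (Real.exp 7 * Real.exp (12 * J)) ^ J :=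
          pow_le_pow_left₀ (by positivity)
            (mul_le_mul h2 h4 (by positivity) (Real.exp_pos _).le) _
      _ = Real.exp (7 * J + 12 * J ^ 2) := by
          rw [← Real.exp_add, ← Real.exp_nat_mul]
          congr 1
          ring
  have h6 : (((2 * (2 + 8 * J) + 5) * (440 * 32 ^ (3 * J)) ^ J : ℕ) : ℝ) =
      ((2 * (2 + 8 * J) + 5 : ℕ) : ℝ) * (440 * (32 : ℝ) ^ (3 * J)) ^ J := by
    push_cast
    ring
  rw [h6]
  calc ((2 * (2 + 8 * J) + 5 : ℕ) : ℝ) * (440 * (32 : ℝ) ^ (3 * J)) ^ J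
      ≤ Real.exp (16 * J + 8) * Real.exp (7 * J + 12 * J ^ 2) :=
        mul_le_mul h1 h5 (by positivity) (Real.exp_pos _).le
    _ = Real.exp (16 * J + 8 + (7 * J + 12 * J ^ 2)) := by rw [← Real.exp_add]
    _ ≤ Real.exp (49 * (J : ℝ) ^ 2) := by
        apply Real.exp_le_exp.2
        nlinarith

/-- the gain beats the losses -/
theorem fin_gain {J : ℕ} (hJ : 12000 ≤ J) {r : ℝ} (hr : r ≤ 7 * ((J : ℝ) + 1)) :
    Real.exp (1 / 100 * r) ≤ (9 / 7 : ℝ) ^ J / (6 * (16 * J + 9)) := by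
  have hJ' : (12000 : ℝ) ≤ J := by exact_mod_cast hJ
  have h1 : Real.exp (1 / 5) ≤ 9 / 7 := by
    have h2 : Real.exp (1 / 5) ^ 5 = Real.exp 1 := by
      rw [← Real.exp_nat_mul]
      norm_num
    have h3 := Real.exp_one_lt_d9
    by_contra hcon
    push Not at hcon
    have h4 : (9 / 7 : ℝ) ^ 5 < Real.exp (1 / 5) ^ 5 :=
      pow_lt_pow_left₀ hcon (by norm_num) (by norm_num)
    rw [h2] at h4
    have h5 : (2.7182818286 : ℝ) < (9 / 7 : ℝ) ^ 5 := by norm_num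
    linarith
  have h2 : Real.exp (J / 5) ≤ (9 / 7 : ℝ) ^ J := by
    calc Real.exp (J / 5) = Real.exp (1 / 5) ^ J := by
          rw [← Real.exp_nat_mul]
          congr 1
          ring
      _ ≤ (9 / 7 : ℝ) ^ J := pow_le_pow_left₀ (Real.exp_pos _).le h1 _
  rw [le_div_iff₀ (by positivity)]
  refine le_trans ?_ h2
  have h3 : 6 * (16 * (J : ℝ) + 9) ≤ Real.exp (13 / 100 * J - 7 / 100) := by
    have h4 := Real.quadratic_le_exp_of_nonneg (x := 13 / 100 * (J : ℝ) - 7 / 100) (by linarith)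
    refine le_trans ?_ h4
    nlinarith
  calc Real.exp (1 / 100 * r) * (6 * (16 * (J : ℝ) + 9))
      ≤ Real.exp (7 / 100 * (J + 1)) * Real.exp (13 / 100 * J - 7 / 100) := by
        refine mul_le_mul (Real.exp_le_exp.2 (by linarith)) h3 (by positivity)
          (Real.exp_pos _).le
    _ = Real.exp (J / 5) := by
        rw [← Real.exp_add]
        congr 1
        ring

theorem main_exp_of (hiter : ∀ J : ℕ, Good (2 + 8 * J) ((440 * 32 ^ (3 * J)) ^ J)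
      (2 * (24 * 32 ^ (3 * J)) ^ J) (6 * (24 * 32 ^ (3 * J)) ^ J * (7 / 9 : ℝ) ^ J))
    (hc1 : ∀ {K ℓ E : ℕ} {ν : ℝ}, Good K ℓ E ν → 0 < ν → ∀ n : ℕ, (2 * K + 5) * ℓ ≤ n →
      (E : ℝ) / (2 * (2 * K + 5) * ν) ≤ P238.c1 (Fin n → Bool) (P238.edDist n)) :
    ∃ c : ℝ, 0 < c ∧ ∃ N : ℕ, ∀ n ≥ N,
      Real.exp (c * Real.sqrt (Real.log n)) ≤ P238.c1 (Fin n → Bool) (P238.edDist n) := by
  refine ⟨1 / 100, by norm_num, ?_⟩
  have htend : Tendsto (fun n : ℕ => Real.sqrt (Real.log n)) atTop atTop :=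
    Real.tendsto_sqrt_atTop.comp (Real.tendsto_log_atTop.comp tendsto_natCast_atTop_atTop)
  obtain ⟨N, hN⟩ := eventually_atTop.1 (htend.eventually_ge_atTop 84007)
  refine ⟨max N 1, fun n hn => ?_⟩
  have hr := hN n (le_trans (le_max_left _ _) hn)
  have hn1 : 1 ≤ n := le_trans (le_max_right _ _) hn
  set r := Real.sqrt (Real.log n) with hrdef
  set J : ℕ := ⌊r / 7⌋₊ with hJdef
  have hr0 : 0 ≤ r := Real.sqrt_nonneg _
  have hJle : (J : ℝ) ≤ r / 7 := Nat.floor_le (by positivity)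
  have hJlt : r / 7 < J + 1 := Nat.lt_floor_add_one _
  have hJ : 12000 ≤ J := by
    have : (12000 : ℝ) < J + 1 := by linarith
    have h2 : (12000 : ℕ) < J + 1 := by exact_mod_cast this
    omega
  have hlog : 0 ≤ Real.log n := Real.log_nonneg (by exact_mod_cast hn1)
  have hsize : (2 * (2 + 8 * J) + 5) * (440 * 32 ^ (3 * J)) ^ J ≤ n := by
    have h1 := fin_size (J := J) (by omega)
    have h2 : Real.exp (49 * (J : ℝ) ^ 2) ≤ n := by
      rw [← Real.le_log_iff_exp_le (by exact_mod_cast hn1)]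
      have h3 : r ^ 2 = Real.log n := Real.sq_sqrt hlog
      rw [← h3]
      nlinarith [(Nat.cast_nonneg J : (0 : ℝ) ≤ J)]
    have h3 := h1.trans h2
    exact_mod_cast h3
  have h1 := hc1 (hiter J) (by positivity) n hsize
  refine le_trans ?_ h1
  refine le_trans (fin_gain hJ (r := r) (by linarith)) (le_of_eq ?_)
  push_cast
  have ha : (0 : ℝ) < (24 * 32 ^ (3 * J)) ^ J := by positivity
  set a : ℝ := (24 * 32 ^ (3 * J)) ^ J with hadef
  have e1 : (9 / 7 : ℝ) ^ J = ((7 / 9 : ℝ) ^ J)⁻¹ := by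
    rw [← inv_pow]
    norm_num
  have h79 : (0 : ℝ) < (7 / 9 : ℝ) ^ J := by positivity
  rw [e1]
  have h16 : (0 : ℝ) < 16 * (J : ℝ) + 9 := by positivity
  have h17 : (0 : ℝ) < 2 * (2 + 8 * (J : ℝ)) + 5 := by positivity
  field_simp
  ring

end Vale.Agent.P238S
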