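import Vale.Agent.P238S.Defs

/-!
P238S [GAD]: the gadget inequality.
-/

namespace Vale.Agent.P238S

open Finset

namespace GadAux

/-- sign -/
def sg (s y : Bool) : ℤ := if s && y then -1 else 1

/-- character -/
def ch (S y : Fin 7 → Bool) : ℤ := ∏ i, sg (S i) (y i)

/-- addition in the cube -/
def xr (a b : Fin 7 → Bool) : Fin 7 → Bool := fun i => xor (a i) (b i)

lemma sg_xor (s y y' : Bool) : sg s (xor y y') = sg s y * sg s y' := by
  cases s <;> cases y <;> cases y' <;> rfl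

lemma ch_xr (S y y' : Fin 7 → Bool) : ch S (xr y y') = ch S y * ch S y' := by
  simp only [ch, xr, sg_xor, Finset.prod_mul_distrib]

lemma sum_sg (y : Bool) : ∑ s : Bool, sg s y = if y = false then 2 else 0 := by
  cases y <;> rfl

lemma ch_sum (y : Fin 7 → Bool) : ∑ S, ch S y = if y = (fun _ => false) then 128 else 0 := by
  have h1 : ∑ S : Fin 7 → Bool, ch S y = ∏ i, ∑ s : Bool, sg s (y i) := by
    rw [Fintype.prod_sum]
    rfl
  rw [h1]
  simp only [sum_sg]
  split_ifs with h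
  · subst h
    simp
  · have : ∃ i, y i ≠ false := by
      by_contra hc
      push Not at hc
      exact h (funext hc)
    obtain ⟨i, hi⟩ := this
    exact Finset.prod_eq_zero (Finset.mem_univ i) (if_neg hi)

set_option maxRecDepth 100000 in
lemma key : ∀ S : Fin 7 → Bool, 3 * (1 - ch S (fun _ => true)) ≤
    (∑ i : Fin 7, (1 - ch S (fun j => decide (j = i)))) + 2 * ∑ k : Fin 3, (1 - ch S (cd k)) := by
  decide +kernel

lemma xr_self_eq (b b' c : Fin 7 → Bool) : xr (xr b b') c = (fun _ => false) ↔ b' = xr b c := by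
  constructor
  · intro h
    funext i
    have := congrFun h i
    simp only [xr] at this ⊢
    revert this
    cases b i <;> cases b' i <;> cases c i <;> simp
  · rintro rfl
    funext i
    simp only [xr]
    cases b i <;> cases c i <;> rfl

lemma corr (G : (Fin 7 → Bool) → ℝ) (c : Fin 7 → Bool) :
    ∑ S, (ch S c : ℝ) * (∑ b, G b * ch S b) ^ 2 = 128 * ∑ b, G b * G (xr b c) := by
  have h1 : ∀ S, (ch S c : ℝ) * (∑ b, G b * ch S b) ^ 2 =
      ∑ b, ∑ b', G b * G b' * (ch S (xr (xr b b') c) : ℝ) := by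
    intro S
    rw [sq, Finset.sum_mul_sum, Finset.mul_sum]
    refine Finset.sum_congr rfl fun b _ => ?_
    rw [Finset.mul_sum]
    refine Finset.sum_congr rfl fun b' _ => ?_
    rw [ch_xr, ch_xr]
    push_cast
    ring
  rw [Finset.sum_congr rfl fun S _ => h1 S, Finset.sum_comm, Finset.mul_sum]
  refine Finset.sum_congr rfl fun b _ => ?_
  rw [Finset.sum_comm]
  have h2 : ∀ b', ∑ S, G b * G b' * (ch S (xr (xr b b') c) : ℝ) =
      if b' = xr b c then 128 * (G b * G b') else 0 := by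
    intro b'
    rw [← Finset.mul_sum, ← Int.cast_sum, ch_sum]
    by_cases h : b' = xr b c
    · rw [if_pos ((xr_self_eq b b' c).2 h), if_pos h]
      push_cast
      ring
    · rw [if_neg (fun h' => h ((xr_self_eq b b' c).1 h')), if_neg h]
      simp
  rw [Finset.sum_congr rfl fun b' _ => h2 b']
  simp

lemma xr_xr (b c : Fin 7 → Bool) : xr (xr b c) c = b := by
  funext i
  simp only [xr]
  cases b i <;> cases c i <;> rfl

lemma energy (G : (Fin 7 → Bool) → ℝ) (c : Fin 7 → Bool) :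
    ∑ b, (G b - G (xr b c)) ^ 2 = 1 / 64 * ∑ S, (1 - (ch S c : ℝ)) * (∑ b, G b * ch S b) ^ 2 := by
  have h1 := corr G c
  have h0 := corr G (fun _ => false)
  have hc0 : ∀ S, ch S (fun _ => false) = 1 := by
    intro S
    simp [ch, sg]
  have hx0 : ∀ b, xr b (fun _ => false) = b := by
    intro b
    funext i
    simp [xr]
  simp only [hc0, hx0, Int.cast_one, one_mul] at h0
  have h2 : ∑ b, G (xr b c) ^ 2 = ∑ b, G b ^ 2 :=
    Fintype.sum_equiv ⟨fun b => xr b c, fun b => xr b c, fun b => xr_xr b c, fun b => xr_xr b c⟩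
      _ _ (fun b => rfl)
  have h3 : ∑ b, (G b - G (xr b c)) ^ 2 = 2 * ∑ b, G b * G b - 2 * ∑ b, G b * G (xr b c) := by
    have h4 : ∀ b, (G b - G (xr b c)) ^ 2 =
        G b ^ 2 + G (xr b c) ^ 2 - 2 * (G b * G (xr b c)) := by
      intro b; ring
    rw [Finset.sum_congr rfl fun b _ => h4 b, Finset.sum_sub_distrib, Finset.sum_add_distrib, h2,
      ← Finset.mul_sum]
    have h5 : ∑ b, G b ^ 2 = ∑ b, G b * G b := Finset.sum_congr rfl fun b _ => sq _
    rw [h5]
    ring
  have h6 : ∑ S, (1 - (ch S c : ℝ)) * (∑ b, G b * ch S b) ^ 2 =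
      ∑ S, (∑ b, G b * ch S b) ^ 2 - ∑ S, (ch S c : ℝ) * (∑ b, G b * ch S b) ^ 2 := by
    rw [← Finset.sum_sub_distrib]
    exact Finset.sum_congr rfl fun S _ => by ring
  rw [h3, h6, h0, h1]
  ring

lemma cube (G : (Fin 7 → Bool) → ℝ) :
    ∑ b, (G b - G (xr b (fun _ => true))) ^ 2
      ≤ 1 / 3 * ∑ i : Fin 7, ∑ b, (G b - G (xr b (fun j => decide (j = i)))) ^ 2
        + 2 / 3 * ∑ k : Fin 3, ∑ b, (G b - G (xr b (cd k))) ^ 2 := by
  simp only [energy, ← Finset.mul_sum]
  rw [Finset.sum_comm (s := (univ : Finset (Fin 7))), Finset.sum_comm (s := (univ : Finset (Fin 3)))]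
  have h : ∀ S, (1 - (ch S (fun _ => true) : ℝ)) * (∑ b, G b * ch S b) ^ 2 ≤
      1 / 3 * ∑ i : Fin 7, (1 - (ch S (fun j => decide (j = i)) : ℝ)) * (∑ b, G b * ch S b) ^ 2 +
      2 / 3 * ∑ k : Fin 3, (1 - (ch S (cd k) : ℝ)) * (∑ b, G b * ch S b) ^ 2 := by
    intro S
    have hk : (3 * (1 - (ch S (fun _ => true) : ℝ))) ≤
        (∑ i : Fin 7, (1 - (ch S (fun j => decide (j = i)) : ℝ))) +
          2 * ∑ k : Fin 3, (1 - (ch S (cd k) : ℝ)) := by
      exact_mod_cast key S
    rw [← Finset.sum_mul, ← Finset.sum_mul]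
    have h0 : 0 ≤ (∑ b, G b * (ch S b : ℝ)) ^ 2 := sq_nonneg _
    nlinarith [mul_le_mul_of_nonneg_right hk h0]
  have h2 := Finset.sum_le_sum fun S (_ : S ∈ (univ : Finset (Fin 7 → Bool))) => h S
  rw [Finset.sum_add_distrib, ← Finset.mul_sum, ← Finset.mul_sum] at h2
  linarith

lemma act_act {X : Type} (τ : X → X) (hτ : ∀ x, τ (τ x) = x) (b c : Fin 7 → Bool)
    (x : Fin 7 → X) : act τ c (act τ b x) = act τ (xr b c) x := by
  funext i
  simp only [act, xr]
  by_cases hb : b i = true <;> by_cases hc : c i = true <;> simp [hb, hc, hτ]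

lemma avg {X : Type} [Fintype X] (τ : X → X) (hτ : ∀ x, τ (τ x) = x)
    (g : (Fin 7 → X) → ℝ) (hg : ∀ x, g x = 0 ∨ g x = 1) (c : Fin 7 → Bool) :
    128 * ∑ x, |g x - g (act τ c x)| =
      ∑ x, ∑ b, (g (act τ b x) - g (act τ (xr b c) x)) ^ 2 := by
  have h1 : ∀ x y, |g x - g y| = (g x - g y) ^ 2 := by
    intro x y
    rcases hg x with h | h <;> rcases hg y with h' | h' <;> rw [h, h'] <;> norm_num
  simp only [h1]
  rw [Finset.sum_comm]
  have h2 : ∀ b : Fin 7 → Bool, ∑ x, (g (act τ b x) - g (act τ (xr b c) x)) ^ 2 =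
      ∑ x, (g x - g (act τ c x)) ^ 2 := by
    intro b
    have hb : ∀ x, act τ b (act τ b x) = x := by
      intro x
      funext i
      simp only [act]
      cases b i <;> simp [hτ]
    refine Fintype.sum_equiv ⟨fun x => act τ b x, fun x => act τ b x, hb, hb⟩ _ _ (fun x => ?_)
    show _ = (g (act τ b x) - g (act τ c (act τ b x))) ^ 2
    rw [act_act τ hτ]
  rw [Finset.sum_congr rfl fun b _ => h2 b]
  simp

end GadAux

open GadAux in
theorem gad {X : Type} [Fintype X] (τ : X → X) (hτ : ∀ x, τ (τ x) = x)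
    (g : (Fin 7 → X) → ℝ) (hg : ∀ x, g x = 0 ∨ g x = 1) :
    ∑ x, |g x - g (act τ (fun _ => true) x)|
      ≤ 1 / 3 * ∑ i : Fin 7, ∑ x, |g x - g (act τ (fun j => decide (j = i)) x)|
        + 2 / 3 * ∑ k : Fin 3, ∑ x, |g x - g (act τ (cd k) x)| := by
  have h1 := avg τ hτ g hg
  have h2 : ∀ x : Fin 7 → X, _ := fun x => cube (fun b => g (act τ b x))
  have h3 := Finset.sum_le_sum fun x (_ : x ∈ (univ : Finset (Fin 7 → X))) => h2 x
  rw [Finset.sum_add_distrib, ← Finset.mul_sum, ← Finset.mul_sum,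
    Finset.sum_comm (s := (univ : Finset (Fin 7 → X))) (t := (univ : Finset (Fin 7))),
    Finset.sum_comm (s := (univ : Finset (Fin 7 → X))) (t := (univ : Finset (Fin 3)))] at h3
  simp only [← h1, ← Finset.mul_sum] at h3
  linarith

end Vale.Agent.P238S
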