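import Vale.Agent.P238S.Defs

/-!
P238S, [NEAR]: upper bounds for the insertion-deletion distance.
-/

namespace Vale.Agent.P238S

namespace NearAux

variable {α β : Type}

theorem refl (x : List α) : Near 0 x x := ⟨x, List.Sublist.refl x, List.Sublist.refl x, by omega⟩

theorem mono {k k' : ℕ} {x y : List α} (h : Near k x y) (hk : k ≤ k') : Near k' x y := by
  obtain ⟨z, h1, h2, h3⟩ := h
  exact ⟨z, h1, h2, by omega⟩

theorem append {k k' : ℕ} {x y x' y' : List α} (h : Near k x y) (h' : Near k' x' y') :
    Near (k + k') (x ++ x') (y ++ y') := by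
  obtain ⟨z, h1, h2, h3⟩ := h
  obtain ⟨z', h1', h2', h3'⟩ := h'
  refine ⟨z ++ z', h1.append h1', h2.append h2', ?_⟩
  simp only [List.length_append]
  omega

theorem rp_succ (T : ℕ) (w : List α) : rp (T + 1) w = w ++ rp T w := by
  simp [rp, List.replicate_succ]

theorem rp_zero (w : List α) : rp 0 w = [] := rfl

theorem rp_length (T : ℕ) (w : List α) : (rp T w).length = T * w.length := by
  simp [rp]

theorem rep {k : ℕ} {x y : List α} (h : Near k x y) (T : ℕ) : Near (T * k) (rp T x) (rp T y) := by
  induction T with
  | zero =>
    rw [rp_zero, rp_zero, Nat.zero_mul]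
    exact refl _
  | succ T ih =>
    rw [rp_succ, rp_succ, Nat.succ_mul, Nat.add_comm]
    exact append h ih

theorem shift (T : ℕ) (a b : List α) : a ++ rp T (b ++ a) = rp T (a ++ b) ++ a := by
  induction T with
  | zero => simp [rp_zero]
  | succ T ih =>
    rw [rp_succ, rp_succ, List.append_assoc b a, ih]
    simp [List.append_assoc]

/-- rotation of a periodic word -/
theorem rot (T : ℕ) (a b : List α) : Near (2 * a.length) (rp T (a ++ b)) (rp T (b ++ a)) := by
  cases T with
  | zero => exact mono (refl _) (Nat.zero_le _)
  | succ T =>
    refine ⟨b ++ rp T (a ++ b), ?_, ?_, ?_⟩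
    · rw [rp_succ, List.append_assoc]
      exact List.sublist_append_right _ _
    · have h1 : rp (T + 1) (b ++ a) = (b ++ rp T (a ++ b)) ++ a := by
        rw [rp_succ, List.append_assoc b a, shift, ← List.append_assoc]
      rw [h1]
      exact List.sublist_append_left _ _
    · rw [rp_succ, rp_succ]
      simp only [List.length_append, rp_length]
      nlinarith

theorem sublist_flatMap (u : α → List β) {x y : List α} (h : x.Sublist y) :
    (x.flatMap u).Sublist (y.flatMap u) := by
  induction h with
  | slnil => exact List.Sublist.refl _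
  | cons a _ ih =>
    rw [List.flatMap_cons]
    exact ih.trans (List.sublist_append_right _ _)
  | cons_cons a _ ih =>
    rw [List.flatMap_cons, List.flatMap_cons]
    exact (List.Sublist.refl _).append ih

theorem length_flatMap_const (u : α → List β) (L : ℕ) (hu : ∀ a, (u a).length = L) (x : List α) :
    (x.flatMap u).length = L * x.length := by
  induction x with
  | nil => simp
  | cons a x ih =>
    rw [List.flatMap_cons, List.length_append, ih, hu, List.length_cons]
    ring

theorem flatMap_sum (f f' : α → List β) (kk : α → ℕ) (h : ∀ a, Near (kk a) (f a) (f' a))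
    (l : List α) : Near (l.map kk).sum (l.flatMap f) (l.flatMap f') := by
  induction l with
  | nil => exact refl _
  | cons a l ih =>
    rw [List.map_cons, List.sum_cons, List.flatMap_cons, List.flatMap_cons]
    exact append (h a) ih

end NearAux

open NearAux

theorem near_flatMap {α β : Type} (L k : ℕ) (u : α → List β) (hu : ∀ a, (u a).length = L)
    (x y : List α) (h : Near k x y) : Near (L * k) (x.flatMap u) (y.flatMap u) := by
  obtain ⟨z, h1, h2, h3⟩ := h
  refine ⟨z.flatMap u, sublist_flatMap u h1, sublist_flatMap u h2, ?_⟩
  rw [length_flatMap_const u L hu, length_flatMap_const u L hu, length_flatMap_const u L hu]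
  calc L * x.length + L * y.length = L * (x.length + y.length) := by ring
    _ ≤ L * (k + 2 * z.length) := Nat.mul_le_mul_left _ h3
    _ = L * k + 2 * (L * z.length) := by ring

theorem near_map {α β : Type} (k : ℕ) (u : α → List β) (n : α → α)
    (h : ∀ a, Near k (u a) (u (n a))) (x : List α) :
    Near (x.length * k) (x.flatMap u) ((x.map n).flatMap u) := by
  have h1 := flatMap_sum u (fun a => u (n a)) (fun _ => k) h x
  have h2 : (x.map fun _ => k).sum = x.length * k := by
    rw [List.map_const', List.sum_replicate, smul_eq_mul]
  rw [h2] at h1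
  rw [List.flatMap_map]
  exact h1

theorem near_U (K M k : ℕ) (P P' : Fin 7 → List ℕ) (i : Fin 7) (hi : Near k (P i) (P' i))
    (hj : ∀ j, j ≠ i → P j = P' j) : Near k (U K M P) (U K M P') := by
  have h1 := flatMap_sum (fun j : Fin 7 => List.replicate M (K + j.1) ++ P j)
    (fun j : Fin 7 => List.replicate M (K + j.1) ++ P' j) (fun j => if j = i then k else 0)
    (fun j => by
      by_cases h : j = i
      · subst h
        rw [if_pos rfl]
        exact mono (append (refl _) hi) (by omega)
      · rw [if_neg h, hj j h]
        exact refl _) (List.finRange 7)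
  have h2 : ((List.finRange 7).map fun j => if j = i then k else 0).sum = k := by
    fin_cases i <;> simp [List.finRange_succ]
  rw [h2] at h1
  exact mono (append h1 (refl (List.replicate M (K + 7)))) (by omega)

theorem U_length (K M ℓ : ℕ) (P : Fin 7 → List ℕ) (h : ∀ i, (P i).length = ℓ) :
    (U K M P).length = 8 * M + 7 * ℓ := by
  rw [U, List.length_append, length_flatMap_const _ (M + ℓ) (fun i => by simp [h])]
  simp only [List.length_finRange, List.length_replicate]
  ring

theorem U_mem (K M : ℕ) (P : Fin 7 → List ℕ) (h : ∀ i, ∀ a ∈ P i, a < K) :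
    ∀ a ∈ U K M P, a < K + 8 := by
  intro a ha
  rw [U, List.mem_append, List.mem_flatMap] at ha
  rcases ha with ⟨i, _, hi⟩ | ha
  · rw [List.mem_append] at hi
    rcases hi with hi | hi
    · have := List.eq_of_mem_replicate hi
      have := i.2
      omega
    · have := h i a hi
      omega
  · have := List.eq_of_mem_replicate ha
    omega

end Vale.Agent.P238S
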