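import Vale.Agent.P238S.Defs
import Vale.Agent.P238.Base

/-!
P238S skeleton (do NOT import). Each section is one file: copy the statement verbatim into the file
named in the comment, namespace `Vale.Agent.P238S`, import `Vale.Agent.P238S.Defs` (and other files
if needed), auxiliary lemmas in a sub-namespace or with a prefix.
-/

namespace Vale.Agent.P238S

open Finset

/- [GAD] Gad.lean : the gadget inequality (Fourier analysis on `F_2^7`, applied on the orbits
`z ↦ act τ z x`).  Only uses `(g x - g y)^2 = |g x - g y|`, Parseval on `Fin 7 → Bool`, and for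
`S : Finset (Fin 7)` with `|S|` odd: `4 ≤ (4/3)|S| + (8/3) #{k : |S ∩ cd k| odd}`. -/
theorem gad {X : Type} [Fintype X] (τ : X → X) (hτ : ∀ x, τ (τ x) = x)
    (g : (Fin 7 → X) → ℝ) (hg : ∀ x, g x = 0 ∨ g x = 1) :
    ∑ x, |g x - g (act τ (fun _ => true) x)|
      ≤ 1 / 3 * ∑ i : Fin 7, ∑ x, |g x - g (act τ (fun j => decide (j = i)) x)|
        + 2 / 3 * ∑ k : Fin 3, ∑ x, |g x - g (act τ (cd k) x)| := by
  sorry

/- [COORD] Coord.lean : a cut inequality for `X`, used in one coordinate of `X^7` -/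
theorem coord {X ι : Type} [Fintype X] [Fintype ι] (τ : X → X) (w : ι → ℝ) (n : ι → X → X)
    (h : ∀ g : X → ℝ, (∀ x, g x = 0 ∨ g x = 1) →
      ∑ x, |g x - g (τ x)| ≤ ∑ j, w j * ∑ x, |g x - g (n j x)|)
    (i : Fin 7) (g : (Fin 7 → X) → ℝ) (hg : ∀ x, g x = 0 ∨ g x = 1) :
    ∑ x, |g x - g (act τ (fun j => decide (j = i)) x)|
      ≤ ∑ j, w j * ∑ x, |g x - g (Function.update x i (n j (x i)))| := by
  sorry

/- [CORE] Core.lean : a block matched with a factor `V` of a concatenation of blocks.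
Proof: let `z` be a common sublist.  If `z` misses a marker `K+i`, then `|U| - |z| ≥ M ≥ c`.
Otherwise `z = K :: .. (K+7)`; in `V` the first letter `K` and the last letter `K+7` of `z` are
matched in the same block `U K M Q` (else `V` contains at least `2M` letters `K+1`, but `z` at most
`M`, so `|V| - |z| ≥ M`), hence `z` is a sublist of `U K M Q`, it splits as
`y₀ q₀ y₁ q₁ … q₆ y₇` with `qᵢ` a sublist of `Pᵢ` and of `Qᵢ`, `V` contains all `Qᵢ`, and the
non-marker letters alone cost at least `c` by `hfar`. -/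
theorem core {K M c : ℕ} (hc : c ≤ M) (P : Fin 7 → List ℕ) (Us : List (Fin 7 → List ℕ))
    (hP : ∀ i, ∀ a ∈ P i, a < K) (hU : ∀ Q ∈ Us, ∀ i, ∀ a ∈ Q i, a < K)
    (hfar : ∀ Q ∈ Us, ∀ q : Fin 7 → List ℕ, (∀ i, (q i).Sublist (P i)) →
      (∀ i, (q i).Sublist (Q i)) →
      c + 2 * ∑ i, (q i).length ≤ ∑ i, ((P i).length + (Q i).length))
    (V A B : List ℕ) (hV : A ++ (V ++ B) = Us.flatMap (U K M)) :
    Far c (U K M P) V := by
  sorry

/- [FCAT] FarCat.lean : superadditivity over a concatenation -/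
theorem far_cat {α : Type} (c : ℕ) (Ps : List (List α)) (W : List α)
    (h : ∀ P ∈ Ps, ∀ V A B, A ++ (V ++ B) = W → Far c P V) :
    Far (Ps.length * c) Ps.flatten W := by
  sorry

/- [BLK] Blocks.lean : the list of blocks -/
theorem B3_length {X : Type} (τ : X → X) (T : ℕ) (x : Fin 7 → X) :
    (B3 τ T x).length = 8 * T ^ 3 := by
  sorry

theorem B3_far {X : Type} (τ : X → X) (hτ : ∀ x, τ (τ x) = x) (T : ℕ) (x : Fin 7 → X) :
    ∀ y ∈ B3 τ T x, ∀ z ∈ B3 τ T (act τ (fun _ => true) x),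
      ∃ S : Finset (Fin 7), 3 ≤ S.card ∧ ∀ i ∈ S, z i = τ (y i) := by
  sorry

theorem B3_near {X : Type} (τ : X → X) (hτ : ∀ x, τ (τ x) = x) (T : ℕ) (k : Fin 3)
    (x : Fin 7 → X) : Near (8 * T ^ 2) (B3 τ T x) (B3 τ T (act τ (cd k) x)) := by
  sorry

theorem B3_map {X : Type} (τ : X → X) (T : ℕ) (n : (Fin 7 → X) → (Fin 7 → X))
    (hn : ∀ k x, n (act τ (cd k) x) = act τ (cd k) (n x)) (x : Fin 7 → X) :
    B3 τ T (n x) = (B3 τ T x).map n := by
  sorry

/- [NEAR] Near.lean : upper bounds for the insertion-deletion distance -/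
theorem near_flatMap {α β : Type} (L k : ℕ) (u : α → List β) (hu : ∀ a, (u a).length = L)
    (x y : List α) (h : Near k x y) : Near (L * k) (x.flatMap u) (y.flatMap u) := by
  sorry

theorem near_map {α β : Type} (k : ℕ) (u : α → List β) (n : α → α)
    (h : ∀ a, Near k (u a) (u (n a))) (x : List α) :
    Near (x.length * k) (x.flatMap u) ((x.map n).flatMap u) := by
  sorry

theorem near_U (K M k : ℕ) (P P' : Fin 7 → List ℕ) (i : Fin 7) (hi : Near k (P i) (P' i))
    (hj : ∀ j, j ≠ i → P j = P' j) : Near k (U K M P) (U K M P') := by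
  sorry

theorem U_length (K M ℓ : ℕ) (P : Fin 7 → List ℕ) (h : ∀ i, (P i).length = ℓ) :
    (U K M P).length = 8 * M + 7 * ℓ := by
  sorry

theorem U_mem (K M : ℕ) (P : Fin 7 → List ℕ) (h : ∀ i, ∀ a ∈ P i, a < K) :
    ∀ a ∈ U K M P, a < K + 8 := by
  sorry

/- [STEP] Step.lean : the composition step (uses GAD, COORD, CORE, FCAT, BLK, NEAR) -/
theorem good_zero : Good 2 1 2 2 := by
  sorry

theorem good_step {K ℓ E : ℕ} {ν : ℝ} (T : ℕ) (hT : 1 ≤ T) (h : Good K ℓ E ν)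
    (hE : E ≤ 2 * ℓ) :
    Good (K + 8) (440 * T ^ 3 * ℓ) (24 * T ^ 3 * E) (56 / 3 * T ^ 3 * ν + 880 * T ^ 2 * ℓ) := by
  sorry

/- [ITER] Iter.lean : iteration (uses STEP) -/
theorem good_iter (J : ℕ) :
    Good (2 + 8 * J) ((440 * 32 ^ (3 * J)) ^ J) (2 * (24 * 32 ^ (3 * J)) ^ J)
      (6 * (24 * 32 ^ (3 * J)) ^ J * (7 / 9 : ℝ) ^ J) := by
  sorry

/- [ENC] Enc.lean : comma-free code -/
theorem encw_length (q : ℕ) (x : List ℕ) (hx : ∀ a ∈ x, a ≤ q) :
    (encw q x).length = (2 * q + 5) * x.length := by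
  sorry

theorem enc_far (q m E : ℕ) (x y : List ℕ) (hx : ∀ a ∈ x, a ≤ q) (hy : ∀ a ∈ y, a ≤ q)
    (hl : x.length = y.length) (h : Far E x y) :
    E ≤ 2 * P238.ED (encw q x ++ List.replicate m false) (encw q y ++ List.replicate m false) := by
  sorry

theorem enc_near (q k : ℕ) (x y : List ℕ) (hx : ∀ a ∈ x, a ≤ q) (hy : ∀ a ∈ y, a ≤ q)
    (h : Near k x y) (t : List Bool) :
    P238.ED (encw q x ++ t) (encw q y ++ t) ≤ (2 * q + 5) * k := by
  sorry

/- [C1] C1.lean : from `Good` to the distortion (uses ENC, P238.Cut, P238.Final) -/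
theorem c1_of_good {K ℓ E : ℕ} {ν : ℝ} (h : Good K ℓ E ν) (hν : 0 < ν) (n : ℕ)
    (hn : (2 * K + 5) * ℓ ≤ n) :
    (E : ℝ) / (2 * (2 * K + 5) * ν) ≤ P238.c1 (Fin n → Bool) (P238.edDist n) := by
  sorry

/- [FIN] Fin.lean : asymptotics (uses ITER, C1) -/
theorem main_exp : ∃ c : ℝ, 0 < c ∧ ∃ N : ℕ, ∀ n ≥ N,
    Real.exp (c * Real.sqrt (Real.log n)) ≤ P238.c1 (Fin n → Bool) (P238.edDist n) := by
  sorry

end Vale.Agent.P238S
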