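import Vale.Agent.P238S.Gad
import Vale.Agent.P238S.Coord
import Vale.Agent.P238S.Core
import Vale.Agent.P238S.FarCat
import Vale.Agent.P238S.Blocks
import Vale.Agent.P238S.Near

/-!
The composition step of the lower bound `exp (c sqrt (log n))`.
-/

namespace Vale.Agent.P238S

open Finset

theorem good_zero : Good 2 1 2 2 := by
  refine ⟨Bool, inferInstance, inferInstance, fun b => !b, fun b => [if b then 1 else 0], Unit,
    inferInstance, fun _ => 1, fun _ b => !b, fun _ => 2, by simp, by simp, ?_, ?_, by simp,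
    by simp, ?_, ?_, by simp⟩
  · intro x a ha
    rw [List.mem_singleton] at ha
    subst ha
    split <;> omega
  · intro x z h1 h2
    rcases List.sublist_singleton.1 h1 with h | h
    · subst h; simp
    · subst h
      exfalso
      rw [List.singleton_sublist, List.mem_singleton] at h2
      cases x <;> simp at h2
  · intro j x
    exact ⟨[], List.nil_sublist _, List.nil_sublist _, by simp⟩
  · intro g _
    simp

namespace StepAux

theorem act_true_true {X : Type} (τ : X → X) (hτ : ∀ x, τ (τ x) = x) (x : Fin 7 → X) :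
    act τ (fun _ => true) (act τ (fun _ => true) x) = x := by
  funext i
  simp [act, hτ]

theorem act_comm {X : Type} (τ : X → X) (c : Fin 7 → Bool) (x : Fin 7 → X) :
    act τ c (act τ (fun _ => true) x) = act τ (fun _ => true) (act τ c x) := by
  funext i
  simp only [act]
  split <;> simp

theorem update_act {X : Type} (τ : X → X) (n : X → X) (hn : ∀ x, n (τ x) = τ (n x))
    (c : Fin 7 → Bool) (i : Fin 7) (x : Fin 7 → X) :
    Function.update (act τ c x) i (n (act τ c x i)) =
      act τ c (Function.update x i (n (x i))) := by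
  funext l
  rcases eq_or_ne l i with rfl | hl
  · simp only [act, Function.update_self]
    split
    · exact hn _
    · rfl
  · simp only [act, Function.update_of_ne hl]

/-- the distance of two blocks -/
theorem blocks_far {X : Type} {E : ℕ} (τ : X → X) (φ : X → List ℕ)
    (hfar : ∀ x, Far E (φ x) (φ (τ x))) (y z : Fin 7 → X) (S : Finset (Fin 7)) (hS : 3 ≤ S.card)
    (hz : ∀ i ∈ S, z i = τ (y i)) (q : Fin 7 → List ℕ) (h1 : ∀ i, (q i).Sublist (φ (y i)))
    (h2 : ∀ i, (q i).Sublist (φ (z i))) :
    3 * E + 2 * ∑ i, (q i).length ≤ ∑ i, ((φ (y i)).length + (φ (z i)).length) := by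
  have key : ∀ i, (if i ∈ S then E else 0) + 2 * (q i).length ≤
      (φ (y i)).length + (φ (z i)).length := by
    intro i
    split
    · next hi =>
      have h2' := h2 i
      rw [hz i hi] at h2' ⊢
      exact hfar (y i) (q i) (h1 i) h2'
    · have e1 := (h1 i).length_le
      have e2 := (h2 i).length_le
      omega
  have h := Finset.sum_le_sum fun i (_ : i ∈ (Finset.univ : Finset (Fin 7))) => key i
  rw [Finset.sum_add_distrib, ← Finset.mul_sum] at h
  have e : ∑ i : Fin 7, (if i ∈ S then E else 0) = S.card * E := by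
    rw [Finset.sum_ite_mem, Finset.univ_inter, Finset.sum_const, smul_eq_mul]
  rw [e] at h
  have h3 : 3 * E ≤ S.card * E := Nat.mul_le_mul_right E hS
  omega

end StepAux

open StepAux

theorem good_step {K ℓ E : ℕ} {ν : ℝ} (T : ℕ) (hT : 1 ≤ T) (h : Good K ℓ E ν)
    (hE : E ≤ 2 * ℓ) :
    Good (K + 8) (440 * T ^ 3 * ℓ) (24 * T ^ 3 * E) (56 / 3 * T ^ 3 * ν + 880 * T ^ 2 * ℓ) := by
  obtain ⟨X, iX, iN, τ, φ, ι, iι, w, n, c, h1, h2, h3, h4, h5, h6, h7, h8, h9⟩ := h
  have hUl : ∀ z : Fin 7 → X, (U K (6 * ℓ) (fun i => φ (z i))).length = 55 * ℓ := by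
    intro z
    rw [U_length K (6 * ℓ) ℓ _ fun i => h2 _]
    ring
  refine ⟨Fin 7 → X, inferInstance, inferInstance, act τ (fun _ => true),
    nx K (6 * ℓ) T τ φ, (Fin 7 × ι) ⊕ Fin 3, inferInstance,
    Sum.elim (fun p => 1 / 3 * w p.2) (fun _ => 2 / 3),
    Sum.elim (fun p x => Function.update x p.1 (n p.2 (x p.1))) (fun k x => act τ (cd k) x),
    Sum.elim (fun p => 8 * T ^ 3 * c p.2) (fun _ => 55 * ℓ * (8 * T ^ 2)),
    act_true_true τ h1, ?_, ?_, ?_, ?_, ?_, ?_, ?_, ?_⟩
  · intro x
    rw [nx, List.length_flatMap]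
    have e : (B3 τ T x).map (fun z => (U K (6 * ℓ) fun i => φ (z i)).length) =
        (B3 τ T x).map (fun _ => 55 * ℓ) := List.map_congr_left fun z _ => hUl z
    rw [e, List.map_const', List.sum_replicate, smul_eq_mul, B3_length]
    ring
  · intro x a ha
    rw [nx, List.mem_flatMap] at ha
    obtain ⟨z, -, ha⟩ := ha
    exact U_mem K (6 * ℓ) _ (fun i => h3 _) a ha
  · intro x
    have e : nx K (6 * ℓ) T τ φ x =
        ((B3 τ T x).map (fun z => U K (6 * ℓ) (fun i => φ (z i)))).flatten := by
      rw [nx, List.flatMap_def]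
    have e2 : 24 * T ^ 3 * E =
        ((B3 τ T x).map (fun z => U K (6 * ℓ) (fun i => φ (z i)))).length * (3 * E) := by
      rw [List.length_map, B3_length]
      ring
    rw [e, e2]
    refine far_cat _ _ _ fun P hP V A B hV => ?_
    rw [List.mem_map] at hP
    obtain ⟨y, hy, rfl⟩ := hP
    refine core (by omega) (fun i => φ (y i))
      ((B3 τ T (act τ (fun _ => true) x)).map (fun z i => φ (z i))) (fun i => h3 _) ?_ ?_ V A B ?_
    · intro Q hQ i
      rw [List.mem_map] at hQ
      obtain ⟨z, -, rfl⟩ := hQ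
      exact h3 _
    · intro Q hQ q hq1 hq2
      rw [List.mem_map] at hQ
      obtain ⟨z, hz, rfl⟩ := hQ
      obtain ⟨S, hS, hzS⟩ := B3_far τ h1 T x y hy z hz
      exact blocks_far τ φ h4 y z S hS hzS q hq1 hq2
    · rw [hV, nx, List.flatMap_map]
  · rintro (p | k)
    · have := h5 p.2
      simp only [Sum.elim_inl]
      positivity
    · simp only [Sum.elim_inr]
      norm_num
  · rintro (p | k) x
    · exact update_act τ (n p.2) (h6 p.2) _ p.1 x
    · exact act_comm τ _ x
  · rintro (⟨i, j⟩ | k) x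
    · have e : nx K (6 * ℓ) T τ φ (Function.update x i (n j (x i))) =
          ((B3 τ T x).map fun z => Function.update z i (n j (z i))).flatMap
            (fun z => U K (6 * ℓ) (fun i => φ (z i))) := by
        rw [nx, B3_map τ T (fun z => Function.update z i (n j (z i)))
          (fun k x => update_act τ (n j) (h6 j) (cd k) i x) x]
      show Near (8 * T ^ 3 * c j) _ (nx K (6 * ℓ) T τ φ (Function.update x i (n j (x i))))
      rw [e, nx, ← B3_length τ T x]
      refine near_map (c j) _ _ (fun a => ?_) _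
      refine near_U K (6 * ℓ) (c j) _ _ i ?_ fun l hl => ?_
      · rw [Function.update_self]
        exact h7 j (a i)
      · rw [Function.update_of_ne hl]
    · show Near (55 * ℓ * (8 * T ^ 2)) _ (nx K (6 * ℓ) T τ φ (act τ (cd k) x))
      rw [nx, nx]
      exact near_flatMap (55 * ℓ) (8 * T ^ 2) _ hUl _ _ (B3_near τ h1 T k x)
  · intro g hg
    have e1 := gad τ h1 g hg
    have e2 : ∀ i : Fin 7, ∑ x, |g x - g (act τ (fun j => decide (j = i)) x)|
        ≤ ∑ j, w j * ∑ x, |g x - g (Function.update x i (n j (x i)))| :=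
      fun i => coord τ w n h8 i g hg
    refine e1.trans ?_
    rw [Fintype.sum_sum_type, Fintype.sum_prod_type]
    simp only [Sum.elim_inl, Sum.elim_inr]
    rw [← Finset.mul_sum]
    refine add_le_add ?_ le_rfl
    rw [Finset.mul_sum]
    refine Finset.sum_le_sum fun i _ => ?_
    refine (mul_le_mul_of_nonneg_left (e2 i) (by norm_num)).trans (le_of_eq ?_)
    rw [Finset.mul_sum]
    refine Finset.sum_congr rfl fun j _ => ?_
    ring
  · rw [Fintype.sum_sum_type, Fintype.sum_prod_type]
    simp only [Sum.elim_inl, Sum.elim_inr, Finset.sum_const, Finset.card_univ, Fintype.card_fin,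
      nsmul_eq_mul]
    have e : ∑ j, 1 / 3 * w j * ((8 * T ^ 3 * c j : ℕ) : ℝ) =
        8 / 3 * (T : ℝ) ^ 3 * ∑ j, w j * (c j : ℝ) := by
      rw [Finset.mul_sum]
      refine Finset.sum_congr rfl fun j _ => ?_
      push_cast
      ring
    rw [e]
    have h10 := mul_le_mul_of_nonneg_left h9 (show (0 : ℝ) ≤ 56 / 3 * (T : ℝ) ^ 3 by positivity)
    push_cast
    linarith

end Vale.Agent.P238S
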